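import Vale.Agent.P197.Covering.Rep
import Vale.Agent.P197.Criterion.Setup

/-!
# A good shape gives a vector modulo two in every integral form
-/

open Finset Equiv Matrix

namespace Vale.Agent.P197.Covering

open SymChar Criterion

variable {d : ℕ}

/-- Complex common zeros of integral matrices give integral ones with an odd entry. -/
lemma exists_odd_kernel_vec {κ : Type*} [Fintype κ] (A : κ → Matrix (Fin d) (Fin d) ℤ)
    (v : Fin d → ℂ) (hv : v ≠ 0) (h : ∀ k, (A k).map (Int.castRingHom ℂ) *ᵥ v = 0) :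
    ∃ w : Fin d → ℤ, (∃ i, Odd (w i)) ∧ ∀ k, A k *ᵥ w = 0 := by
  classical
  set M : Matrix (Fin d) (Fin d) ℤ := ∑ k, (A k)ᵀ * A k
  have hdet : M.det = 0 := by
    have h1 : M.map (Int.castRingHom ℂ) *ᵥ v = 0 := by
      have : M.map (Int.castRingHom ℂ) =
          ∑ k, ((A k)ᵀ).map (Int.castRingHom ℂ) * (A k).map (Int.castRingHom ℂ) := by
        rw [← RingHom.mapMatrix_apply, map_sum]
        refine sum_congr rfl fun k _ => ?_
        simp only [RingHom.mapMatrix_apply, Matrix.map_mul]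
      rw [this, Matrix.sum_mulVec]
      exact sum_eq_zero fun k _ => by rw [← Matrix.mulVec_mulVec, h k, Matrix.mulVec_zero]
    have h2 : (M.map (Int.castRingHom ℂ)).det = 0 :=
      Matrix.exists_mulVec_eq_zero_iff.mp ⟨v, hv, h1⟩
    rw [← RingHom.mapMatrix_apply, ← RingHom.map_det] at h2
    exact Int.cast_eq_zero.mp h2
  obtain ⟨w, hw, hMw⟩ := Matrix.exists_mulVec_eq_zero_iff.mpr hdet
  have hker : ∀ k, A k *ᵥ w = 0 := by
    intro k
    have h1 : ∑ k, (A k *ᵥ w) ⬝ᵥ (A k *ᵥ w) = 0 := by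
      have h2 : w ⬝ᵥ (M *ᵥ w) = 0 := by rw [hMw, dotProduct_zero]
      rw [Matrix.sum_mulVec, dotProduct_sum] at h2
      refine Eq.trans (sum_congr rfl fun k _ => ?_) h2
      rw [← Matrix.mulVec_mulVec, Matrix.dotProduct_mulVec w, Matrix.vecMul_transpose]
    have h3 := (sum_eq_zero_iff_of_nonneg fun k _ =>
      sum_nonneg fun i _ => mul_self_nonneg _).mp h1 k (mem_univ k)
    exact dotProduct_self_eq_zero.mp h3
  obtain ⟨i, hi⟩ : ∃ i, w i ≠ 0 := by
    by_contra hno
    push Not at hno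
    exact hw (funext hno)
  obtain ⟨u, hu, hg⟩ := Finset.extract_gcd w ⟨i, mem_univ i⟩
  have hw' : w = (univ.gcd w) • u := funext fun x => hu x (mem_univ x)
  refine ⟨u, ?_, fun k => ?_⟩
  · by_contra hno
    push Not at hno
    have h2 : (2 : ℤ) ∣ univ.gcd u :=
      Finset.dvd_gcd fun x _ => (Int.not_odd_iff_even.mp (hno x)).two_dvd
    rw [hg] at h2
    norm_num at h2
  · have h1 := hker k
    rw [hw', Matrix.mulVec_smul] at h1
    refine (smul_eq_zero.mp h1).resolve_left fun h0 => hi ?_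
    rw [hw', Pi.smul_apply, h0, zero_smul]

/-- A good shape gives, in every integral form, a nonzero vector modulo two fixed by the class
permutations and killed by `1 + g + g ^ 2`. -/
theorem exists_mod_two_vec {n : ℕ} {ι : Type*} {cls : Fin n → ι} {gs : List (Perm (Fin n))}
    {c : n.Partition} (h : GoodC cls gs (chiP c))
    (S : Perm (Fin n) →* Matrix (Fin d) (Fin d) ℤ) (hS : ∀ g, (S g).trace = chi (beta c) g) :
    ∃ w : Fin d → ZMod 2, w ≠ 0 ∧ (∀ y : Perm (Fin n), cls ∘ y = cls → red S y *ᵥ w = w) ∧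
      ∀ g ∈ gs, w + red S g *ᵥ w + red S (g * g) *ᵥ w = 0 := by
  classical
  let ρ : Representation ℂ (Perm (Fin n)) (Fin d → ℂ) :=
    (Matrix.toLinAlgEquiv').toAlgHom.toRingHom.toMonoidHom.comp
      (((Int.castRingHom ℂ).mapMatrix).toMonoidHom.comp S)
  have hρ : ρ.character = chiP c := by
    funext g
    show LinearMap.trace ℂ _ (Matrix.toLin' ((Int.castRingHom ℂ).mapMatrix (S g))) = _
    rw [Matrix.trace_toLin'_eq, RingHom.mapMatrix_apply, trace_map_int, hS]
    rfl
  have hρa : ∀ g x, ρ g x = (S g).map (Int.castRingHom ℂ) *ᵥ x := fun g x => rfl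
  obtain ⟨v, hv, hy, hg⟩ := h.exists_vec (chiP_mem_irrSet c) ρ hρ
  let sgn : {y : Perm (Fin n) // cls ∘ y = cls} → ℤ := fun y => if ρ y.1 v = v then 1 else -1
  let A : {y : Perm (Fin n) // cls ∘ y = cls} ⊕ {g // g ∈ gs.toFinset} →
      Matrix (Fin d) (Fin d) ℤ :=
    Sum.elim (fun y => S y.1 - sgn y • 1) (fun g => 1 + S g.1 + S (g.1 * g.1))
  have hA : ∀ k, (A k).map (Int.castRingHom ℂ) *ᵥ v = 0 := by
    rintro (y | g)
    · simp only [A, Sum.elim_inl, ← RingHom.mapMatrix_apply, map_sub, map_zsmul, map_one,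
        Matrix.sub_mulVec, Matrix.smul_mulVec, Matrix.one_mulVec]
      rw [RingHom.mapMatrix_apply, ← hρa]
      simp only [sgn]
      split_ifs with h1
      · rw [h1, one_zsmul, sub_self]
      · rw [(hy y.1 y.2).resolve_left h1, neg_one_zsmul, sub_self]
    · simp only [A, Sum.elim_inr, ← RingHom.mapMatrix_apply, map_add, map_one,
        Matrix.add_mulVec, Matrix.one_mulVec]
      rw [RingHom.mapMatrix_apply, RingHom.mapMatrix_apply, ← hρa, ← hρa]
      exact hg g.1 (List.mem_toFinset.mp g.2)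
  obtain ⟨u, ⟨i, hi⟩, hu⟩ := exists_odd_kernel_vec A v hv hA
  let φ := Int.castRingHom (ZMod 2)
  have hcast : ∀ (M : Matrix (Fin d) (Fin d) ℤ), M *ᵥ u = 0 →
      φ.mapMatrix M *ᵥ (φ ∘ u) = 0 := by
    intro M hM
    funext x
    rw [RingHom.mapMatrix_apply, ← RingHom.map_mulVec, hM]
    simp
  refine ⟨φ ∘ u, fun h0 => ?_, fun y hy' => ?_, fun g hg' => ?_⟩
  · have := congrFun h0 i
    simp only [φ, Function.comp_apply, Int.coe_castRingHom, Pi.zero_apply] at this
    rw [ZMod.intCast_zmod_eq_zero_iff_dvd] at this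
    exact (Int.not_even_iff_odd.mpr hi) (even_iff_two_dvd.mpr (by exact_mod_cast this))
  · have h1 := hcast _ (hu (Sum.inl ⟨y, hy'⟩))
    simp only [A, Sum.elim_inl, map_sub, map_zsmul, map_one, Matrix.sub_mulVec,
      Matrix.smul_mulVec, Matrix.one_mulVec, sub_eq_zero] at h1
    refine Eq.trans h1 ?_
    simp only [sgn]
    split_ifs
    · rw [one_zsmul]
    · funext x
      rw [neg_one_zsmul, Pi.neg_apply, ZMod.neg_eq_self_mod_two]
  · have h1 := hcast _ (hu (Sum.inr ⟨g, List.mem_toFinset.mpr hg'⟩))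
    simp only [A, Sum.elim_inr, map_add, map_one, Matrix.add_mulVec, Matrix.one_mulVec] at h1
    exact h1

end Vale.Agent.P197.Covering
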