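import Vale.Agent.P197.SymChar.Conjugate
import Vale.Agent.P197.Littlewood

/-!
# Pieces, layouts and good vectors

A single piece of size `q` is one class of `q` points; a gadget of size `3 p` consists of three
classes of `p` points together with the order preserving permutation cycling the classes.
`GoodC` asks for a vector which every class permutation fixes up to a sign and which every gadget
permutation `g` kills through `1 + g + g ^ 2`.
-/

open Finset Equiv

namespace Vale.Agent.P197.Covering

open SymChar Littlewood

/-- A single class, or three classes permuted cyclically. -/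
inductive Piece
  | single (q : ℕ)
  | gadget (p : ℕ)

/-- The number of points of a piece. -/
def Piece.size : Piece → ℕ
  | .single q => q
  | .gadget p => 3 * p

/-- The class of a point inside its piece. -/
def Piece.cls : (P : Piece) → Fin P.size → ℕ
  | .single _, _ => 0
  | .gadget p, x => ((finProdFinEquiv (m := 3) (n := p)).symm x).1

/-- The permutation of a gadget. -/
def Piece.perms : (P : Piece) → List (Perm (Fin P.size))
  | .single _ => []
  | .gadget p =>
    [(finProdFinEquiv (m := 3) (n := p)).permCongr
      (Equiv.prodCongr (finRotate 3) (Equiv.refl (Fin p)))]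

/-- The number of points of a list of pieces. -/
def total : List Piece → ℕ
  | [] => 0
  | P :: ps => P.size + total ps

/-- The classes of a list of pieces: position of the piece, class inside it. -/
def layCls : (ps : List Piece) → Fin (total ps) → ℕ × ℕ
  | [], _ => (0, 0)
  | P :: ps, x =>
    Sum.elim (fun i => (0, P.cls i)) (fun j => ((layCls ps j).1 + 1, (layCls ps j).2))
      (finSumFinEquiv.symm x)

/-- The gadget permutations of a list of pieces. -/
def layGs : (ps : List Piece) → List (Perm (Fin (total ps)))
  | [] => []
  | P :: ps =>
    P.perms.map (fun g => youngHom P.size (total ps) (g, 1)) ++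
      (layGs ps).map (fun g => youngHom P.size (total ps) (1, g))

@[simp] lemma layCls_cons_inl (P : Piece) (ps : List Piece) (i : Fin P.size) :
    layCls (P :: ps) (finSumFinEquiv (Sum.inl i)) = (0, P.cls i) := by
  show Sum.elim _ _ (finSumFinEquiv.symm (finSumFinEquiv (Sum.inl i))) = _
  rw [Equiv.symm_apply_apply]
  rfl

@[simp] lemma layCls_cons_inr (P : Piece) (ps : List Piece) (j : Fin (total ps)) :
    layCls (P :: ps) (finSumFinEquiv (Sum.inr j)) =
      ((layCls ps j).1 + 1, (layCls ps j).2) := by
  show Sum.elim _ _ (finSumFinEquiv.symm (finSumFinEquiv (Sum.inr j))) = _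
  rw [Equiv.symm_apply_apply]
  rfl

lemma mem_layGs_cons {P : Piece} {ps : List Piece} {g : Perm (Fin (P.size + total ps))} :
    g ∈ layGs (P :: ps) ↔ (∃ h ∈ P.perms, youngHom P.size (total ps) (h, 1) = g) ∨
      ∃ h ∈ layGs ps, youngHom P.size (total ps) (1, h) = g := by
  show g ∈ List.map _ P.perms ++ List.map _ (layGs ps) ↔ _
  exact List.mem_append.trans (or_congr List.mem_map List.mem_map)

/-- The pieces below the top ones. -/
def tail : ℕ → List Piece
  | 0 => []
  | 1 => [.gadget 1]
  | K + 2 => .gadget (2 * K + 3) :: .single (2 * K + 2) :: tail (K + 1)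

/-- The pieces of a covering. -/
def pieces (top : List ℕ) (K : ℕ) : List Piece := top.map Piece.single ++ tail K

/-- Some representation of character `χ` has a vector which the class stabiliser fixes up to sign
and which is killed by `1 + g + g ^ 2` for each `g` in `gs`. -/
def GoodC {n : ℕ} {ι : Type*} (cls : Fin n → ι) (gs : List (Perm (Fin n)))
    (χ : Perm (Fin n) → ℂ) : Prop :=
  ∃ (d : ℕ) (ρ : Representation ℂ (Perm (Fin n)) (Fin d → ℂ)), ρ.character = χ ∧
    ∃ v : Fin d → ℂ, v ≠ 0 ∧ (∀ y : Perm (Fin n), cls ∘ y = cls → ρ y v = v ∨ ρ y v = -v) ∧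
      ∀ g ∈ gs, v + ρ g v + ρ (g * g) v = 0

/-- A shape is good for a list of pieces. -/
def Good (ps : List Piece) (c : (total ps).Partition) : Prop :=
  GoodC (layCls ps) (layGs ps) (chiP c)

end Vale.Agent.P197.Covering
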