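import Vale.Agent.P197.Covering.Single

/-!
# Covering: the gadget of size nine, by inspection of the partitions of fourteen
-/

open Finset Equiv

namespace Vale.Agent.P197.Covering

open SymChar

/-- Nonincreasing lists of length `len`, entries at most `m`, sum `n`. -/
def seqs : ℕ → ℕ → ℕ → List (List ℕ)
  | 0, _, n => if n = 0 then [[]] else []
  | len + 1, m, n =>
    if (len + 1) * m < n then [] else
      (List.range (min m n + 1)).flatMap fun x => (seqs len x (n - x)).map (x :: ·)

lemma mem_seqs : ∀ (L : List ℕ) (m n : ℕ), L.Pairwise (· ≥ ·) → (∀ x ∈ L, x ≤ m) → L.sum = n →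
    L ∈ seqs L.length m n := by
  intro L
  induction L with
  | nil => intro m n _ _ h; simp [seqs, ← h]
  | cons x L ih =>
    intro m n hp hm hs
    rw [List.pairwise_cons] at hp
    simp only [List.sum_cons] at hs
    simp only [List.length_cons, seqs]
    rw [if_neg]
    · simp only [List.mem_flatMap, List.mem_range, List.mem_map, List.cons.injEq]
      exact ⟨x, by have := hm x List.mem_cons_self; omega,
        L, ih x (n - x) hp.2 (fun y hy => hp.1 y hy) (by omega), rfl, rfl⟩
    · have hle := List.sum_le_card_nsmul L m (fun y hy => hm y (List.mem_cons_of_mem _ hy))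
      have := hm x List.mem_cons_self
      rw [smul_eq_mul] at hle
      rw [Nat.add_mul, one_mul]
      omega

/-- The gadget shapes of size nine and their conjugates. -/
def cands : List (List ℕ) :=
  [[8, 1], [7, 2], [6, 3], [6, 2, 1], [5, 3, 1], [4, 3, 2], [2, 1, 1, 1, 1, 1, 1, 1],
    [2, 2, 1, 1, 1, 1, 1], [2, 2, 2, 1, 1, 1], [3, 2, 1, 1, 1, 1], [3, 2, 2, 1, 1], [3, 3, 2, 1]]

/-- A gadget shape can be stripped from `f`, leaving margins at most four. -/
def Strip (f : ℕ → ℕ) : Prop :=
  ∃ l ∈ cands, (∀ i ∈ range 14, l.getD i 0 ≤ f i ∧ f i - l.getD i 0 ≤ 4) ∧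
    #((range 14).filter fun i => 0 < f i - l.getD i 0) ≤ 4

instance (f : ℕ → ℕ) : Decidable (Strip f) :=
  inferInstanceAs (Decidable (∃ l ∈ cands, _))

/-- The conjugate of a list of fourteen rows. -/
def conjF (L : List ℕ) (t : ℕ) : ℕ := #((range 14).filter fun i => t < L.getD i 0)

set_option maxRecDepth 10000 in
lemma strip_all : ∀ L ∈ seqs 14 12 14,
    L.getD 12 0 = 0 → ¬ (L.getD 1 0 ≤ 1 ∧ (L.getD 0 0 = 8 ∨ L.getD 0 0 = 7)) →
      Strip (fun i => L.getD i 0) ∨ Strip (conjF L) := by decide +kernel

lemma cands_spec : ∀ l ∈ cands,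
    (∑ i ∈ range 9, l.getD i 0) = 9 ∧ l.length ≤ 9 ∧ (∀ i ∈ range 9, l.getD (i + 1) 0 ≤ l.getD i 0) ∧
      ((l.getD 3 0 = 0 ∧ l.getD 2 0 < l.getD 1 0 ∧ l.getD 1 0 ≤ 3) ∨
      (#((range 9).filter fun i => 3 < l.getD i 0) = 0 ∧
        #((range 9).filter fun i => 2 < l.getD i 0) < #((range 9).filter fun i => 1 < l.getD i 0) ∧
        #((range 9).filter fun i => 1 < l.getD i 0) ≤ 3)) := by decide +kernel

lemma good_strip (ih : Cov [2] 1) (c : (3 * 3 + total (pieces [2] 1)).Partition)
    (h : Strip (row c)) : Good (Piece.gadget 3 :: pieces [2] 1) c := by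
  obtain ⟨l, hl, hfit, hlen⟩ := h
  obtain ⟨hsum, hlen9, hanti, hleaf⟩ := cands_spec l hl
  obtain ⟨lam, hlam⟩ := exists_partition_of_antitone (n := 3 * 3) (fun i => l.getD i 0)
    (antitone_nat_of_succ_le fun i => by
      by_cases hi : i < 9
      · exact hanti i (mem_range.mpr hi)
      · rw [List.getD_eq_default _ _ (by omega)]; exact Nat.zero_le _)
    hsum (List.getD_eq_default _ _ hlen9)
  have hcol : ∀ t, colLen lam t = #((range 9).filter fun i => t < l.getD i 0) := fun t => by
    rw [colLen]
    simp only [hlam]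
  have hgood : GoodC (Piece.gadget 3).cls (Piece.gadget 3).perms (chiP lam) := by
    rcases hleaf with ⟨h3, h2, h1⟩ | ⟨h3, h2, h1⟩
    · exact goodC_gadget 3 lam (by rw [hlam]; exact h3) (by rw [hlam, hlam]; exact h2)
        (by rw [hlam]; exact h1)
    · have hc := goodC_conjP (goodC_gadget 3 (conjP lam) (by rw [row_conjP, hcol]; exact h3)
        (by rw [row_conjP, row_conjP, hcol, hcol]; exact h2)
        (by rw [row_conjP, hcol]; exact h1)) (fun g hg => ?_)
      · exact (congrArg (fun p => GoodC (Piece.gadget 3).cls (Piece.gadget 3).perms (chiP p))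
          (conjP_conjP lam)).mp hc
      · rw [List.mem_singleton.mp hg]
        decide +kernel
  have hsub : ∀ i, row lam i ≤ row c i := fun i => by
    rw [hlam]
    by_cases hi : i < 14
    · exact (hfit i (mem_range.mpr hi)).1
    · rw [List.getD_eq_default _ _ (by omega)]; exact Nat.zero_le _
  refine Good.step (lam := lam) hgood hsub fun kap hk => ?_
  have hk' : ∀ t, colLen kap t = #((range 14).filter fun i => t < row c i - row lam i) := hk
  simp only [hlam] at hk'
  have h1 : row kap 0 ≤ 4 := by
    refine row_zero_le_of_colLen kap ?_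
    rw [hk', card_eq_zero, filter_eq_empty_iff]
    intro i hi
    have := (hfit i hi).2
    omega
  have h2 : colLen kap 0 ≤ 4 := by rw [hk']; exact hlen
  exact ih kap (show row kap 0 + 1 ≤ 5 by omega) (show colLen kap 0 + 1 ≤ 5 by omega)
    fun he => List.cons_ne_nil _ _ he.1

/-- The gadget of size nine. -/
theorem cov_gadget_two (ih : Cov [2] 1) : Cov [] 2 := by
  intro c
  change (3 * 3 + total (pieces [2] 1)).Partition at c
  intro hc0 hl hexc
  have hn : 3 * 3 + total (pieces [2] 1) = 14 := rfl
  have h0 : row c 0 + 2 ≤ 14 := hc0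
  have h0' : colLen c 0 + 2 ≤ 14 := hl
  set L := (List.range 14).map (row c)
  have hget : ∀ i, L.getD i 0 = row c i := fun i => by
    rcases lt_or_ge i 14 with hi | hi
    · rw [List.getD_eq_getElem _ _ (by simpa [L] using hi)]
      simp [L]
    · rw [List.getD_eq_default _ _ (by simpa [L] using hi), row_eq_zero_of_le c (hn ▸ hi)]
  have hmem : L ∈ seqs 14 12 14 := by
    have := mem_seqs L 12 14 ?_ ?_ ?_
    · simpa [L] using this
    · exact List.pairwise_map.mpr (List.pairwise_lt_range.imp fun h => row_antitone c h.le)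
    · intro x hx
      obtain ⟨i, -, rfl⟩ := List.mem_map.mp hx
      have := row_antitone c (Nat.zero_le i)
      omega
    · have h1 : ∑ i ∈ range 14, row c i = 14 := sum_range_row c
      exact h1
  have h12 : L.getD 12 0 = 0 := by
    rw [hget]
    by_contra hc
    have := (lt_colLen_iff c 12 0).mpr (Nat.pos_of_ne_zero hc)
    omega
  have hexc' : ¬ (L.getD 1 0 ≤ 1 ∧ (L.getD 0 0 = 8 ∨ L.getD 0 0 = 7)) := by
    rw [hget, hget]
    exact fun h => hexc ⟨rfl, rfl, h.1, h.2⟩
  rcases strip_all L hmem h12 hexc' with h | h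
  · rw [funext hget] at h
    exact good_strip ih c h
  · refine Good.of_conjP (good_strip ih (conjP c) ?_)
    have e : conjF L = row (conjP c) := funext fun t => by
      rw [row_conjP, colLen, conjF]
      simp only [hget]
      rfl
    rwa [← e]

end Vale.Agent.P197.Covering
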