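import Vale.Agent.P197.Covering.Shape

/-!
# A gadget leaf fits into every large diagram inside a small square, or into its conjugate
-/

open Finset

namespace Vale.Agent.P197.Covering

open SymChar

variable {n : ℕ}

/-- What failure to fit a leaf says about the first three rows. -/
lemma exists_tri_le_or {p : ℕ} (hp : 2 ≤ p) (c : n.Partition) (ha : p + 1 ≤ row c 0)
    (hB : 1 ≤ row c 1) :
    (∃ l, IsGadgetLeaf p l ∧ ∀ i, l i ≤ row c i) ∨
      (p ≤ row c 1 ∧ row c 2 + 2 ≤ p ∧ row c 0 + row c 2 + 1 ≤ 2 * p) ∨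
      (row c 1 < p ∧ row c 0 + row c 1 + row c 2 ≤ 3 * p) := by
  have hBC := row_antitone c (show 1 ≤ 2 by omega)
  have use : ∀ a b d, d < b → b < a → a + b + d = 3 * p → b ≤ p →
      a ≤ row c 0 → b ≤ row c 1 → d ≤ row c 2 → ∃ l, IsGadgetLeaf p l ∧ ∀ i, l i ≤ row c i :=
    fun a b d h1 h2 h3 h4 h5 h6 h7 =>
      ⟨tri a b d, ⟨a, b, d, h1, h2, h3, h4, Or.inl rfl⟩, tri_le c h5 h6 h7⟩
  by_cases hb : p ≤ row c 1
  · by_cases hc : p ≤ row c 2 + 1
    · exact Or.inl (use (p + 1) p (p - 1) (by omega) (by omega) (by omega) le_rfl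
        (by omega) hb (by omega))
    · by_cases h : row c 0 + row c 2 + 1 ≤ 2 * p
      · exact Or.inr (Or.inl ⟨hb, by omega, h⟩)
      · exact Or.inl (use (2 * p - row c 2) p (row c 2) (by omega) (by omega) (by omega) le_rfl
          (by omega) hb le_rfl)
  · by_cases h : row c 0 + row c 1 + row c 2 ≤ 3 * p
    · exact Or.inr (Or.inr ⟨by omega, h⟩)
    · refine Or.inl (use (3 * p - row c 1 - min (row c 2) (row c 1 - 1)) (row c 1)
        (min (row c 2) (row c 1 - 1)) ?_ ?_ ?_ ?_ ?_ ?_ ?_) <;> omega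

lemma fit_arith {p n s t C D : ℤ} (hp : 5 ≤ p) (hn : 2 * n = 2 * p ^ 2 + 3 * p + 1) (hC : 2 ≤ C)
    (hD : 0 ≤ D) (hs : (s + 2 * C ≤ 4 * p - 2 ∧ C ≤ p - 2) ∨ (s + C ≤ 3 * p ∧ C ≤ p - 1))
    (ht : (t + 2 * D ≤ 4 * p - 2 ∧ D ≤ p - 2) ∨ (t + D ≤ 3 * p ∧ D ≤ p - 1)) :
    s + t + D * (C - 2) < n + 2 * C := by
  rcases hs with ⟨hs, hC'⟩ | ⟨hs, hC'⟩ <;> rcases ht with ⟨ht, hD'⟩ | ⟨ht, hD'⟩ <;>
    nlinarith [mul_nonneg (sub_nonneg.mpr hC) (sub_nonneg.mpr hD'),
      mul_nonneg (sub_nonneg.mpr hC') (sub_nonneg.mpr hD),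
      mul_nonneg (sub_nonneg.mpr hC) (sub_nonneg.mpr hC'),
      mul_nonneg (sub_nonneg.mpr hp) (sub_nonneg.mpr hp)]

/-- A leaf for a gadget with classes of `p` points fits into the diagram or into its conjugate. -/
theorem exists_gadgetLeaf_le {p : ℕ} (hp : 5 ≤ p) (c : n.Partition)
    (hn : 2 * n = 2 * p ^ 2 + 3 * p + 1) (ha : row c 0 + 2 ≤ 3 * p)
    (hL : colLen c 0 ≤ row c 0) :
    ∃ d, (d = c ∨ d = conjP c) ∧ ∃ l, IsGadgetLeaf p l ∧ ∀ i, l i ≤ row d i := by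
  set a := row c 0 with hadef
  set B := row c 1
  set C := row c 2
  set L := colLen c 0 with hLdef
  have hmul : n ≤ L * a := size_le_mul c
  have hap : p + 1 ≤ a := by
    by_contra h
    push Not at h
    nlinarith [Nat.mul_le_mul (show L ≤ p by omega) (show a ≤ p by omega)]
  have hL2 : 2 ≤ L := by
    by_contra h
    push Not at h
    nlinarith [Nat.mul_le_mul (show L ≤ 1 by omega) (show a ≤ 3 * p by omega)]
  have hB : 1 ≤ B := (pos_colLen_iff c 1).mp (by omega)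
  have hn2 : 2 ≤ n := by nlinarith
  rcases exists_tri_le_or (p := p) (by omega) c hap hB with h | hc
  · exact ⟨c, Or.inl rfl, h⟩
  have hBa : B ≤ a := row_antitone c (Nat.zero_le 1)
  have hCB : C ≤ B := row_antitone c (show 1 ≤ 2 by omega)
  have hrows : n + 2 * C ≤ a + B + L * C := size_le_rows c hn2
  by_cases hLp : L ≤ p
  · have hLC : L * C ≤ p * C := Nat.mul_le_mul_right C hLp
    rcases hc with ⟨h1, h2, h3⟩ | ⟨h1, h2⟩
    · nlinarith [Nat.mul_le_mul_left p (show C + 2 ≤ p from h2)]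
    · nlinarith [Nat.mul_le_mul_left p (show C + 1 ≤ p by omega)]
  have hq1 : 1 ≤ colLen c 1 := by
    rw [Nat.one_le_iff_ne_zero, ← Nat.pos_iff_ne_zero, lt_colLen_iff]
    omega
  rcases exists_tri_le_or (p := p) (by omega) (conjP c) (by rw [row_conjP]; omega)
      (by rw [row_conjP]; exact hq1) with h | hd
  · exact ⟨conjP c, Or.inr rfl, h⟩
  simp only [row_conjP] at hd
  rw [← hLdef] at hd
  have hqL : colLen c 1 ≤ L := colLen_antitone c (Nat.zero_le 1)
  have hDq : colLen c 2 ≤ colLen c 1 := colLen_antitone c (show 1 ≤ 2 by omega)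
  exfalso
  by_cases hC : C ≤ 1
  · have : L * C ≤ L := (Nat.mul_le_mul_left L hC).trans_eq (mul_one L)
    rcases hc with ⟨h1, h2, h3⟩ | ⟨h1, h2⟩ <;> nlinarith
  · have hb : n + 2 * C ≤ a + B + L + colLen c 1 + colLen c 2 * (C - 2) :=
      size_le_rows_cols c (by omega)
    have key : ((a + B : ℕ) : ℤ) + (L + colLen c 1 : ℕ) + (colLen c 2 : ℤ) * ((C : ℤ) - 2)
        < n + 2 * C := by
      refine fit_arith (p := p) (by omega) (by exact_mod_cast hn) (by omega) (by omega) ?_ ?_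
      · rcases hc with ⟨h1, h2, h3⟩ | ⟨h1, h2⟩
        · exact Or.inl ⟨by omega, by omega⟩
        · exact Or.inr ⟨by omega, by omega⟩
      · rcases hd with ⟨h1, h2, h3⟩ | ⟨h1, h2⟩
        · exact Or.inl ⟨by omega, by omega⟩
        · exact Or.inr ⟨by omega, by omega⟩
    have hcast : ((colLen c 2 * (C - 2) : ℕ) : ℤ) = (colLen c 2 : ℤ) * ((C : ℤ) - 2) := by
      rw [Nat.cast_mul, Nat.cast_sub (by omega)]; push_cast; rfl
    omega

end Vale.Agent.P197.Covering
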