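import Vale.Agent.P197.Covering.Single

/-!
# Covering: the step for a large gadget
-/

open Finset Equiv

namespace Vale.Agent.P197.Covering

open SymChar

/-- A gadget shape given by three rows. -/
lemma exists_threeRow {p a b d : ℕ} (hab : b ≤ a) (hbd : d < b) (hbp : b ≤ p)
    (hsum : a + b + d = 3 * p) :
    ∃ lam : (3 * p).Partition, GoodC (Piece.gadget p).cls (Piece.gadget p).perms (chiP lam) ∧
      ∀ i, row lam i = if i = 0 then a else if i = 1 then b else if i = 2 then d else 0 := by
  let f : ℕ → ℕ := fun i => if i = 0 then a else if i = 1 then b else if i = 2 then d else 0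
  obtain ⟨lam, hlam⟩ := exists_partition_of_antitone (n := 3 * p) f (fun i j hij => by
      simp only [f]; split_ifs <;> omega) (by
      rw [← sum_subset (range_subset_range.mpr (show 3 ≤ 3 * p by omega)) (fun i _ hi => by
        have : 3 ≤ i := not_lt.mp (mt mem_range.mpr hi)
        simp only [f]; split_ifs <;> omega)]
      simp [f, sum_range_succ]
      omega) (by simp only [f]; split_ifs <;> omega)
  refine ⟨lam, goodC_gadget p lam ?_ ?_ ?_, hlam⟩ <;> simp only [hlam, f] <;> simp <;> omega

lemma gadget_perms_sign (p : ℕ) : ∀ g ∈ (Piece.gadget p).perms, Perm.sign g = 1 := by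
  intro g hg
  rw [List.mem_singleton.mp hg]
  refine (Perm.sign_permCongr (finProdFinEquiv (m := 3) (n := p)) _).trans ?_
  have h : (Equiv.prodCongr (finRotate 3) (Equiv.refl (Fin p))) *
      Equiv.prodCongr (finRotate 3) (Equiv.refl (Fin p)) *
      Equiv.prodCongr (finRotate 3) (Equiv.refl (Fin p)) = 1 := by
    refine Equiv.ext fun x => ?_
    obtain ⟨a, b⟩ := x
    fin_cases a <;> rfl
  have := congrArg Perm.sign h
  rwa [map_mul, map_mul, Int.units_mul_self, one_mul, map_one] at this

/-- `c` contains a gadget shape of size `3 p`. -/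
def Fits (p : ℕ) {n : ℕ} (c : n.Partition) : Prop :=
  1 ≤ row c 1 ∧ 3 * p ≤ row c 0 + min (row c 1) p + min (row c 2) (min (row c 1) p - 1)

/-- One of a small shape and its conjugate contains a gadget shape. -/
lemma fits_or_fits {j n : ℕ} (c : n.Partition) (hn : n + (j + 3) = 4 * (j + 3) * (j + 3))
    (h0 : row c 0 ≤ 6 * j + 13) (hlc : colLen c 0 ≤ row c 0) :
    Fits (2 * j + 5) c ∨ Fits (2 * j + 5) (conjP c) := by
  by_contra hno
  rw [not_or] at hno
  obtain ⟨hF, hF'⟩ := hno
  simp only [Fits, row_conjP] at hF'
  simp only [Fits] at hF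
  have hmul := size_le_row_mul c
  have hc1 := row_zero_add_one_le c
  have h12 := row_antitone c (show 1 ≤ 2 by omega)
  have h01 := row_antitone c (show 0 ≤ 1 by omega)
  have hA := colLen_antitone c (show 0 ≤ 1 by omega)
  have hB := colLen_antitone c (show 1 ≤ 2 by omega)
  have hsq : n ≤ row c 0 * row c 0 := hmul.trans (Nat.mul_le_mul_left _ hlc)
  have hbig : 2 * j + 6 ≤ row c 0 := by
    by_contra hc
    nlinarith
  have hpre : ∑ i ∈ range 2, row c i = row c 0 + row c 1 := by simp [sum_range_succ]
  by_cases hb : 2 * j + 5 ≤ row c 1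
  · -- the second row is long
    have hs := size_le c (a := 2) (m := colLen c 0 + 2) (by omega)
    rw [hpre, show colLen c 0 - (colLen c 0 + 2) = 0 by omega, zero_mul, add_zero,
      Nat.add_sub_cancel] at hs
    have hs2 := size_le c (a := 2) (m := max (colLen c 0) 2) (le_max_right _ _)
    rw [hpre, show colLen c 0 - max (colLen c 0) 2 = 0 by omega, zero_mul, add_zero] at hs2
    have h2 : max (colLen c 0) 2 - 2 ≤ row c 0 - 2 := by omega
    have h3 : n ≤ 2 * row c 0 + (row c 0 - 2) * row c 2 := by
      have := Nat.mul_le_mul_right (row c 2) h2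
      omega
    have h4 : row c 0 + row c 2 + 1 ≤ 4 * j + 10 := by
      have : 1 ≤ row c 1 := by omega
      omega
    obtain ⟨x, hx⟩ : ∃ x, row c 0 = x + 2 := ⟨row c 0 - 2, by omega⟩
    rw [hx, Nat.add_sub_cancel] at h3
    have h5 : x * row c 2 + x * x + 3 * x ≤ x * (4 * j + 10) := by
      rw [← mul_add, mul_comm 3 x, ← mul_add]
      exact Nat.mul_le_mul_left x (by omega)
    zify at h3 h5 hn
    nlinarith [sq_nonneg ((2 * x : ℤ) - (4 * j + 9))]
  rw [not_le] at hb
  -- the second row is short
  have hs : row c 0 + row c 1 + row c 2 ≤ 6 * j + 15 ∨ row c 1 = 0 := by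
    by_cases h : row c 1 = 0
    · exact Or.inr h
    · refine Or.inl ?_
      omega
  have hn' : n + (j + 3) = 4 * (j * j) + 24 * j + 36 := by rw [hn]; ring
  by_cases hA2 : colLen c 1 ≤ 2 * j + 4
  · have hm := size_le c (a := 2) (m := max (colLen c 1) 2) (le_max_right _ _)
    have hrow : row c (max (colLen c 1) 2) ≤ 1 :=
      (row_antitone c (le_max_left _ _)).trans (row_colLen_le c 1)
    rw [hpre] at hm
    have h1 := Nat.mul_le_mul_left (colLen c 0 - max (colLen c 1) 2) hrow
    have h2 : (max (colLen c 1) 2 - 2) * row c 2 ≤ (2 * j + 2) * row c 2 :=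
      Nat.mul_le_mul_right _ (by omega)
    rcases hs with hs | hs
    · have h5 := Nat.mul_le_mul_left (2 * j) (show row c 2 ≤ 2 * j + 4 by omega)
      have e1 : 2 * j * (2 * j + 4) = 4 * (j * j) + 8 * j := by ring
      have e2 : (2 * j + 2) * row c 2 = 2 * j * row c 2 + 2 * row c 2 := by ring
      omega
    · rw [show row c 2 = 0 by omega, mul_zero] at hm
      omega
  rw [not_le] at hA2
  -- the second column is long
  by_cases hB2 : 2 * j + 4 ≤ colLen c 2
  · have hlen : colLen c 0 ≤ 2 * j + 5 := by omega
    have hm := size_le c (a := 2) (m := max (colLen c 0) 2) (le_max_right _ _)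
    rw [hpre, show colLen c 0 - max (colLen c 0) 2 = 0 by omega, zero_mul, add_zero] at hm
    have h2 : (max (colLen c 0) 2 - 2) * row c 2 ≤ (2 * j + 3) * row c 2 :=
      Nat.mul_le_mul_right _ (by omega)
    rcases hs with hs | hs
    · have h5 := Nat.mul_le_mul_left (2 * j + 3) (show row c 2 ≤ 2 * j + 4 by omega)
      have e1 : (2 * j + 3) * (2 * j + 4) = 4 * (j * j) + 14 * j + 12 := by ring
      omega
    · rw [show row c 2 = 0 by omega, mul_zero] at hm
      omega
  rw [not_le] at hB2
  have hlenB : colLen c 0 + colLen c 2 ≤ 4 * j + 9 := by omega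
  have hm := size_le c (a := 2) (m := max (colLen c 2) 2) (le_max_right _ _)
  have hrow : row c (max (colLen c 2) 2) ≤ 2 :=
    (row_antitone c (le_max_left _ _)).trans (row_colLen_le c 2)
  rw [hpre] at hm
  have h1 := Nat.mul_le_mul_left (colLen c 0 - max (colLen c 2) 2) hrow
  rcases hs with hs | hs
  · obtain ⟨y, hy⟩ : ∃ y, max (colLen c 2) 2 = y + 2 := ⟨max (colLen c 2) 2 - 2, by omega⟩
    rw [hy, Nat.add_sub_cancel] at hm
    rw [hy] at h1
    have h5 := Nat.mul_le_mul_left y (show row c 2 ≤ 2 * j + 4 by omega)
    have e1 : y * (2 * j + 4) = 2 * (j * y) + 4 * y := by ring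
    have h6 := Nat.mul_le_mul_left j (show y ≤ 2 * j + 1 by omega)
    have e2 : j * (2 * j + 1) = 2 * (j * j) + j := by ring
    have h7 : y = 0 → j * y = 0 := fun h => by rw [h, mul_zero]
    omega
  · rw [show row c 2 = 0 by omega, mul_zero] at hm
    omega

/-- A shape containing a gadget shape, with small margins. -/
lemma good_gadget_fits {j : ℕ} (ih : Cov [2 * j + 4] (j + 2))
    (c : (3 * (2 * j + 5) + total (pieces [2 * j + 4] (j + 2))).Partition)
    (hF : Fits (2 * j + 5) c) (h0 : row c 0 ≤ 6 * j + 13) (hl : colLen c 0 ≤ 6 * j + 13) :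
    Good (Piece.gadget (2 * j + 5) :: pieces [2 * j + 4] (j + 2)) c := by
  have hT := total_pieces [2 * j + 4] (j + 2)
  have hT' : 4 * (j + 2) * (j + 2) = 4 * (j * j) + 16 * j + 16 := by ring
  simp only [List.sum_cons, List.sum_nil, add_zero] at hT
  obtain ⟨hF1, hF⟩ := hF
  set b := min (row c 1) (2 * j + 5)
  set d := min (row c 2) (b - 1)
  obtain ⟨lam, hgood, hlam⟩ := exists_threeRow (p := 2 * j + 5) (a := 3 * (2 * j + 5) - b - d)
    (b := b) (d := d) (by omega) (by omega) (by omega) (by omega)
  have hsub : ∀ i, row lam i ≤ row c i := fun i => by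
    rw [hlam i]
    split_ifs with e0 e1 e2
    · subst e0; omega
    · subst e1; omega
    · subst e2; omega
    · exact Nat.zero_le _
  refine Good.step (lam := lam) hgood hsub fun kap hk => ?_
  have hk' : ∀ t, colLen kap t = #((range (3 * (2 * j + 5) +
      total (pieces [2 * j + 4] (j + 2)))).filter fun i => t < row c i - row lam i) := hk
  clear hk
  · have h1 : row kap 0 ≤ 6 * j + 13 := by
      refine row_zero_le_of_colLen kap ?_
      rw [hk', card_eq_zero, filter_eq_empty_iff]
      intro i _ hi
      have := row_antitone c (Nat.zero_le i)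
      omega
    have h2 : colLen kap 0 ≤ colLen c 0 := by
      rw [hk', colLen]
      exact card_le_card fun i hi => by simp only [mem_filter] at hi ⊢; exact ⟨hi.1, by omega⟩
    exact ih kap (by omega) (by omega) fun he => List.cons_ne_nil _ _ he.1

lemma cov_gadget_aux {j : ℕ} (ih : Cov [2 * j + 4] (j + 2))
    (c : (3 * (2 * j + 5) + total (pieces [2 * j + 4] (j + 2))).Partition)
    (hc0 : row c 0 + (j + 3) ≤ 3 * (2 * j + 5) + total (pieces [2 * j + 4] (j + 2)))
    (hlc : colLen c 0 ≤ row c 0) :
    Good (Piece.gadget (2 * j + 5) :: pieces [2 * j + 4] (j + 2)) c := by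
  have hT := total_pieces [2 * j + 4] (j + 2)
  have hT' : 4 * (j + 2) * (j + 2) = 4 * (j * j) + 16 * j + 16 := by ring
  simp only [List.sum_cons, List.sum_nil, add_zero] at hT
  by_cases hbig : 6 * j + 14 ≤ row c 0
  · obtain ⟨lam, hgood, hlam⟩ := exists_threeRow (p := 2 * j + 5) (a := 6 * j + 14) (b := 1)
      (d := 0) (by omega) (by omega) (by omega) (by omega)
    have h12 := row_antitone c (show 1 ≤ 2 by omega)
    have h123 := row_012_le c
    have hc1 := row_zero_add_one_le c
    have hcl := size_le c (a := 1) (m := 1) le_rfl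
    simp only [sum_range_one, Nat.sub_self, zero_mul, add_zero] at hcl
    have hr1 : 1 ≤ row c 1 := by
      by_contra hc
      rw [show row c 1 = 0 by omega, mul_zero] at hcl
      omega
    refine Good.step (lam := lam) hgood (fun i => ?_) fun kap hk => ?_
    · refine (hlam i).trans_le ?_
      split_ifs with e0 e1 e2
      · subst e0; exact hbig
      · subst e1; exact hr1
      · exact Nat.zero_le _
      · exact Nat.zero_le _
    · have hk' : ∀ t, colLen kap t = #((range (3 * (2 * j + 5) +
          total (pieces [2 * j + 4] (j + 2)))).filter fun i => t < row c i -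
            (if i = 0 then 6 * j + 14 else if i = 1 then 1 else if i = 2 then 0 else 0)) :=
        fun t => (hk t).trans (congrArg card (filter_congr fun i _ =>
          Iff.of_eq (congrArg (fun x => t < row c i - x) (hlam i))))
      have hjj : j ≤ j * j := Nat.le_mul_self j
      have h01 := row_antitone c (show 0 ≤ 1 by omega)
      have h1 : row kap 0 + (j + 2) ≤ total (pieces [2 * j + 4] (j + 2)) := by
        have : row kap 0 ≤ max (row c 0 - (6 * j + 14)) (max (row c 1 - 1) (row c 2)) := by
          refine row_zero_le_of_colLen kap ?_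
          rw [hk', card_eq_zero, filter_eq_empty_iff]
          intro i _
          rcases (show i = 0 ∨ i = 1 ∨ 2 ≤ i by omega) with hi | hi | hi
          · subst hi; simp
          · subst hi; simp
          · have := row_antitone c hi
            rw [if_neg (by omega), if_neg (by omega)]
            simp; omega
        omega
      have h2 : colLen kap 0 + (j + 2) ≤ total (pieces [2 * j + 4] (j + 2)) := by
        have hhook := sum_range_add_colLen_le c 1
        have hhook2 := sum_range_add_colLen_le c 2
        simp only [sum_range_succ, sum_range_zero, zero_add] at hhook hhook2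
        have hle : colLen kap 0 ≤ colLen c 0 := by
          rw [hk', colLen]
          exact card_le_card fun i hi => by simp only [mem_filter] at hi ⊢; exact ⟨hi.1, by omega⟩
        have hlt : row c 1 = 1 → colLen kap 0 < colLen c 0 := by
          intro h11
          rw [hk', colLen]
          refine card_lt_card ((Finset.ssubset_iff_of_subset fun i hi => ?_).mpr ⟨1, ?_, ?_⟩)
          · simp only [mem_filter] at hi ⊢; exact ⟨hi.1, by omega⟩
          · simp only [mem_filter, mem_range]; omega
          · simp [h11]
        omega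
      exact ih kap h1 h2 fun he => List.cons_ne_nil _ _ he.1
  · have hn : 3 * (2 * j + 5) + total (pieces [2 * j + 4] (j + 2)) + (j + 3) =
        4 * (j + 3) * (j + 3) := by
      have : 4 * (j + 3) * (j + 3) = 4 * (j * j) + 24 * j + 36 := by ring
      omega
    rcases fits_or_fits c hn (by omega) hlc with hF | hF
    · exact good_gadget_fits ih c hF (by omega) (by omega)
    · refine Good.of_conjP (good_gadget_fits ih (conjP c) hF ?_ ?_)
      · rw [row_conjP_zero]; omega
      · rw [colLen_conjP]; omega

/-- The step for a gadget of size at least `15`. -/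
theorem cov_gadget {j : ℕ} (ih : Cov [2 * j + 4] (j + 2)) : Cov [] (j + 3) := by
  intro c
  change (3 * (2 * j + 5) + total (pieces [2 * j + 4] (j + 2))).Partition at c
  intro hc0 hl _
  rcases le_total (colLen c 0) (row c 0) with h | h
  · exact cov_gadget_aux ih c hc0 h
  · refine Good.of_conjP (cov_gadget_aux ih (conjP c) ?_ ?_)
    · rw [row_conjP_zero]; exact hl
    · rw [colLen_conjP, row_conjP_zero]; exact h

end Vale.Agent.P197.Covering
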