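import Vale.Agent.P197.Covering.Rep

/-!
# Good shapes of a single piece

A single class takes the one-row shape; a gadget of size `3 p` takes every shape of at most three
rows with `λ₂ > λ₃` and `λ₂ ≤ p`.
-/

open Finset Equiv Representation

namespace Vale.Agent.P197.Covering

open SymChar

variable {n : ℕ}

lemma eq_of_row_eq {p q : n.Partition} (h : ∀ i, row p i = row q i) : p = q :=
  beta_injective (funext fun i => by simp [beta, h])

/-- A one-row shape has a vector fixed by every permutation. -/
theorem goodC_oneRow (p : n.Partition) (hp : ∀ i, 1 ≤ i → row p i = 0) {ι : Type*}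
    (cls : Fin n → ι) : GoodC cls [] (chiP p) := by
  classical
  obtain ⟨d, ρ, _, hρ⟩ := chiP_mem_irrSet p
  have hne : (Nat.card (Perm (Fin n)) : ℂ) ≠ 0 := by simp [Nat.card_eq_fintype_card]
  have : Invertible (Nat.card (Perm (Fin n)) : ℂ) := invertibleOfNonzero hne
  have hrank : Module.finrank ℂ (invariants ρ) = 1 := by
    rcases Nat.eq_zero_or_pos n with h0 | hn
    · have h1 := card_inv_mul_sum_char_eq_finrank ρ
      subst h0
      have h2 : ∀ π : Perm (Fin 0), chi (beta p) π = 1 := fun π => by
        have h3 : fixedCol 0 π = {isEmptyElim} := by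
          ext f; simp [Subsingleton.elim f isEmptyElim, eq_iff_true_of_subsingleton]
        have h4 : cnt (isEmptyElim : Fin 0 → Fin 0) = 0 := by funext j; exact j.elim0
        rw [chi, h3, sum_singleton, h4, eps_zero (isBeta_beta p)]
      rw [hρ] at h1
      simp [chiP, chiC, h2, Nat.card_eq_fintype_card] at h1
      exact_mod_cast h1.symm
    · have h1 := card_inv_mul_sum_char_eq_finrank ρ
      have h2 := sum_stab_chi 1 (beta p) (fun _ : Fin n => (0 : Fin 1))
      have h3 : stab (fun _ : Fin n => (0 : Fin 1)) = univ := by ext π; simp [Function.comp_def]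
      have h4 : cnt (fun _ : Fin n => (0 : Fin 1)) = fun _ => n := by
        funext j; simp [cnt, Subsingleton.elim j 0]
      have h5 : kost n 1 (beta p) (fun _ : Fin 1 => n) = 1 := by
        refine kost_diag 1 hn _ _ (isBeta_beta p)
          (fun i hi => by simp [beta, hp i hi]) fun i => ?_
        have e : row p 0 = n := by
          conv_rhs => rw [← sum_range_row p, ← sum_subset (range_subset_range.mpr hn)
            (fun i _ hi => hp i (not_lt.mp (mt mem_range.mpr hi)))]
          simp
        simp [beta, Subsingleton.elim i 0, e]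
      rw [h3, h4, h5] at h2
      rw [hρ] at h1
      simp only [chiP, chiC] at h1
      rw [← Int.cast_sum, h2] at h1
      simp [Nat.card_eq_fintype_card, Fintype.card_perm, Nat.factorial_ne_zero] at h1
      exact_mod_cast h1.symm
  have : Nontrivial (invariants ρ) := Module.nontrivial_of_finrank_pos (R := ℂ) (by omega)
  obtain ⟨⟨v, hv⟩, hv0⟩ := exists_ne (0 : invariants ρ)
  exact ⟨d, ρ, hρ, v, fun h => hv0 (Subtype.ext h), fun y _ => Or.inl (hv y), by simp⟩

section Gadget

variable (T : Fin n → Fin n) (h : Fin n → Fin 3)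

/-- The colourings constant `0` on the second row and `2` on the third. -/
noncomputable def rowMark (g : Fin n → Fin 3) : ℂ :=
  if ∀ x, ((T x : ℕ) = 1 → g x = 0) ∧ ((T x : ℕ) = 2 → g x = 2) then 1 else 0

/-- The image of a colouring in the group algebra. -/
noncomputable def markVec : GA n := ∑ π : Perm (Fin n), MonoidAlgebra.single π (rowMark T (h ∘ π))

/-- The image of a colouring in the Specht module. -/
noncomputable def spechtVec : GA n := markVec T h * youngSym T

/-- The antisymmetrised mark. -/
noncomputable def colMark : ℂ :=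
  ∑ c ∈ ({π | colOf T ∘ π = colOf T} : Finset (Perm (Fin n))),
    ((Perm.sign c : ℤ) : ℂ) * rowMark T (h ∘ ⇑c⁻¹)

lemma spechtVec_mem : spechtVec T h ∈ (specht T).toSubmodule := by
  rw [spechtVec, markVec, sum_mul]
  refine Submodule.sum_mem _ fun π _ => ?_
  have e : MonoidAlgebra.single π (rowMark T (h ∘ π)) * youngSym T =
      rowMark T (h ∘ π) • (MonoidAlgebra.single π (1 : ℂ) * youngSym T) := by
    rw [← smul_mul_assoc, MonoidAlgebra.smul_single, smul_eq_mul, mul_one]
  rw [e]
  exact Submodule.smul_mem _ _ (Submodule.subset_span ⟨π, rfl⟩)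

lemma single_mul_markVec (g : Perm (Fin n)) :
    MonoidAlgebra.single g (1 : ℂ) * markVec T h = markVec T (h ∘ ⇑g⁻¹) := by
  rw [markVec, mul_sum]
  refine Fintype.sum_equiv (Equiv.mulLeft g) _ _ fun π => ?_
  simp only [MonoidAlgebra.single_mul_single, one_mul, Equiv.coe_mulLeft]
  congr 2
  funext x
  simp

lemma regRep_spechtVec (g : Perm (Fin n)) :
    regRep n g (spechtVec T h) = spechtVec T (h ∘ ⇑g⁻¹) := by
  show MonoidAlgebra.single g 1 * _ = _
  rw [spechtVec, spechtVec, ← mul_assoc, single_mul_markVec]

lemma markVec_mul_rowSym : markVec T h * rowSym T = (#(stab T) : ℂ) • markVec T h := by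
  rw [rowSym, mul_sum, Nat.cast_smul_eq_nsmul, ← sum_const]
  refine sum_congr rfl fun r hr => ?_
  rw [mem_stab] at hr
  rw [markVec, sum_mul]
  refine Fintype.sum_equiv (Equiv.mulRight r) _ _ fun π => ?_
  simp only [MonoidAlgebra.single_mul_single, mul_one, Equiv.coe_mulRight]
  congr 1
  simp only [rowMark, Function.comp_apply, Perm.mul_apply]
  refine if_congr ⟨fun hh x => ?_, fun hh x => ?_⟩ rfl rfl
  · have e : T (r x) = T x := congrFun hr x
    exact ⟨fun hx => (hh (r x)).1 (by rwa [e]), fun hx => (hh (r x)).2 (by rwa [e])⟩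
  · obtain ⟨y, rfl⟩ := r.surjective x
    have e : T (r y) = T y := congrFun hr y
    exact ⟨fun hx => (hh y).1 (by rwa [← e]), fun hx => (hh y).2 (by rwa [← e])⟩

lemma coeff_spechtVec (π : Perm (Fin n)) :
    (spechtVec T h).coeff π = (#(stab T) : ℂ) * colMark T (h ∘ π) := by
  classical
  rw [spechtVec, youngSym, ← mul_assoc, markVec_mul_rowSym, smul_mul_assoc]
  simp only [colSym, markVec, sum_mul, mul_sum, MonoidAlgebra.coeff_smul,
    MonoidAlgebra.coeff_sum, MonoidAlgebra.single_mul_single, Finsupp.smul_apply, smul_eq_mul,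
    Finsupp.finsetSum_apply, MonoidAlgebra.coeff_single, Finsupp.single_apply, colMark]
  refine sum_congr rfl fun c _ => ?_
  rw [sum_eq_single (π * c⁻¹)]
  · rw [if_pos (by simp), mul_comm (rowMark T _)]
    congr 2
  · intro σ _ hσ
    rw [if_neg fun he => hσ (by rw [← he]; simp), mul_zero]
  · simp

end Gadget

lemma finRotate_three_eq (j : Fin 3) : finRotate 3 j = j + 1 := finRotate_apply j

/-- A three-row shape with `λ₂ > λ₃` and `λ₂ ≤ p` is good for a gadget of size `3 p`. -/
theorem goodC_gadget (p : ℕ) (lam : (3 * p).Partition) (h3 : row lam 3 = 0)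
    (h21 : row lam 2 < row lam 1) (h1p : row lam 1 ≤ p) :
    GoodC (Piece.gadget p).cls (Piece.gadget p).perms (chiP lam) := by
  classical
  set T := tableau lam
  have hT : IsTableau lam T := (exists_isTableau lam).choose_spec
  let C0 : Fin (3 * p) → Fin 3 := fun x => ((finProdFinEquiv (m := 3) (n := p)).symm x).1
  let g : Perm (Fin (3 * p)) := (finProdFinEquiv (m := 3) (n := p)).permCongr
    (Equiv.prodCongr (finRotate 3) (Equiv.refl (Fin p)))
  have hg3 : g * g * g = 1 := by
    have := layGs_cube [Piece.gadget p]
    have h2 := this _ (mem_layGs_cons.mpr (Or.inl ⟨g, List.mem_singleton.mpr rfl, rfl⟩))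
    change (Littlewood.youngHom (3 * p) 0 (g, 1) * Littlewood.youngHom (3 * p) 0 (g, 1) *
      Littlewood.youngHom (3 * p) 0 (g, 1) : Perm (Fin (3 * p + 0))) = 1 at h2
    rw [← map_mul, ← map_mul, Prod.mk_mul_mk, Prod.mk_mul_mk,
      map_eq_one_iff _ (Littlewood.youngHom_injective _ _)] at h2
    exact (Prod.mk.inj h2).1
  have hC0g : C0 ∘ g = fun x => C0 x + 1 := by
    funext x
    show ((finProdFinEquiv (m := 3) (n := p)).symm (finProdFinEquiv
      (Equiv.prodCongr (finRotate 3) (Equiv.refl (Fin p)) (finProdFinEquiv.symm x)))).1 = _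
    rw [Equiv.symm_apply_apply]
    exact finRotate_three_eq _
  let w : (specht T).toSubmodule := ⟨spechtVec T C0, spechtVec_mem T C0⟩ -
    ⟨spechtVec T (C0 ∘ g), spechtVec_mem T _⟩
  refine GoodC.of_rep (spechtRep lam) (spechtRep_character lam) w ?_ ?_ ?_
  · -- the colouring separating the two vectors
    intro hw
    have hrow : ∀ x, (T x : ℕ) < 3 ∧ colOf T x < row lam (T x) := by
      intro x
      have h1 := (exists_cell hT (T x) (colOf T x)).mp ⟨x, rfl, rfl⟩
      refine ⟨?_, h1⟩
      by_contra hc
      have := row_antitone lam (not_lt.mp hc)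
      omega
    have hsum : row lam 0 + row lam 1 + row lam 2 = 3 * p := by
      have h1 := sum_range_row lam
      rw [← sum_subset (range_subset_range.mpr (show 3 ≤ 3 * p by omega)) (fun i _ hi => by
        have := row_antitone lam (not_lt.mp (mt mem_range.mpr hi)); omega)] at h1
      simp [sum_range_succ] at h1
      omega
    have hl10 := row_antitone lam (show 0 ≤ 1 by omega)
    let hh : Fin (3 * p) → Fin 3 := fun x => if (T x : ℕ) = 1 then 0 else if (T x : ℕ) = 2 then 2
      else if colOf T x < p then 1 else if colOf T x < 2 * p - row lam 1 then 0 else 2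
    have hcnt : cnt hh = cnt C0 := by
      have hC : ∀ j, cnt C0 j = p := by
        intro j
        rw [← cnt_comp_equiv C0 (finProdFinEquiv (m := 3) (n := p))]
        have e : C0 ∘ (finProdFinEquiv (m := 3) (n := p)) = Prod.fst := by
          funext x
          show ((finProdFinEquiv (m := 3) (n := p)).symm (finProdFinEquiv x)).1 = _
          rw [Equiv.symm_apply_apply]
        rw [e, cnt, show ({x : Fin 3 × Fin p | x.1 = j} : Finset _) = {j} ×ˢ univ by
          ext ⟨a, b⟩; simp [eq_comm]]
        simp
      -- the cells of a set of rows and columns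
      have hcard : ∀ (i : ℕ) (a b : ℕ), i < 3 → b ≤ row lam i →
          #{x | (T x : ℕ) = i ∧ a ≤ colOf T x ∧ colOf T x < b} = b - a := by
        intro i a b hi hb
        rw [← Nat.card_Ico a b]
        refine card_bij (fun x _ => colOf T x) ?_ ?_ ?_
        · intro x hx
          simp only [mem_filter, mem_univ, true_and] at hx
          exact mem_Ico.mpr hx.2
        · intro x hx y hy hxy
          simp only [mem_filter, mem_univ, true_and] at hx hy
          exact row_col_injective T (Fin.ext (hx.1.trans hy.1.symm)) hxy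
        · intro c hc
          rw [mem_Ico] at hc
          obtain ⟨x, hx, hxc⟩ :=
            (exists_cell hT ⟨i, by omega⟩ c).mpr (show c < row lam i by omega)
          exact ⟨x, by simp [hx, hxc, hc.1, hc.2], hxc⟩
      funext j
      rw [hC]
      fin_cases j <;> simp only [cnt, hh]
      · have hd : Disjoint (univ.filter fun x => (T x : ℕ) = 1 ∧ 0 ≤ colOf T x ∧ colOf T x < row lam 1)
            (univ.filter fun x => (T x : ℕ) = 0 ∧ p ≤ colOf T x ∧ colOf T x < 2 * p - row lam 1) :=
          disjoint_filter.mpr fun x _ => by omega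
        refine Eq.trans ?_ (show row lam 1 - 0 + (2 * p - row lam 1 - p) = p by omega)
        rw [← hcard 1 0 (row lam 1) (by omega) le_rfl,
          ← hcard 0 p (2 * p - row lam 1) (by omega) (by omega), ← card_union_of_disjoint hd]
        congr 1
        ext x
        have h5 := (hrow x).1
        have h7 := (hrow x).2
        simp only [mem_union, mem_filter, mem_univ, true_and]
        rcases (show (T x : ℕ) = 0 ∨ (T x : ℕ) = 1 ∨ (T x : ℕ) = 2 by omega) with h8 | h8 | h8 <;>
          rw [h8] at h7 <;> simp [h8] <;> (try split_ifs) <;> (try simp) <;> omega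
      · refine Eq.trans ?_ ((hcard 0 0 p (by omega) (by omega)).trans (Nat.sub_zero p))
        congr 1
        ext x
        have h5 := (hrow x).1
        have h7 := (hrow x).2
        simp only [mem_filter, mem_univ, true_and]
        rcases (show (T x : ℕ) = 0 ∨ (T x : ℕ) = 1 ∨ (T x : ℕ) = 2 by omega) with h8 | h8 | h8 <;>
          rw [h8] at h7 <;> simp [h8] <;> (try split_ifs) <;> (try simp) <;> omega
      · have hd : Disjoint (univ.filter fun x => (T x : ℕ) = 2 ∧ 0 ≤ colOf T x ∧ colOf T x < row lam 2)
            (univ.filter fun x => (T x : ℕ) = 0 ∧ 2 * p - row lam 1 ≤ colOf T x ∧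
              colOf T x < row lam 0) :=
          disjoint_filter.mpr fun x _ => by omega
        refine Eq.trans ?_
          (show row lam 2 - 0 + (row lam 0 - (2 * p - row lam 1)) = p by omega)
        rw [← hcard 2 0 (row lam 2) (by omega) le_rfl,
          ← hcard 0 (2 * p - row lam 1) (row lam 0) (by omega) le_rfl,
          ← card_union_of_disjoint hd]
        congr 1
        ext x
        have h5 := (hrow x).1
        have h7 := (hrow x).2
        simp only [mem_union, mem_filter, mem_univ, true_and]
        rcases (show (T x : ℕ) = 0 ∨ (T x : ℕ) = 1 ∨ (T x : ℕ) = 2 by omega) with h8 | h8 | h8 <;>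
          rw [h8] at h7 <;> simp [h8] <;> (try split_ifs) <;> (try simp) <;> omega
    obtain ⟨π, hπ⟩ := exists_perm_of_cnt_eq hcnt.symm
    have hone : colMark T hh = 1 := by
      rw [colMark, sum_eq_single 1]
      · rw [rowMark, if_pos]
        · simp
        · intro x
          simp only [inv_one, Perm.coe_one, Function.comp_id, hh]
          constructor <;> intro hx <;> simp [hx]
      · intro c hc hne
        rw [rowMark, if_neg, mul_zero]
        intro hall
        rw [mem_filter] at hc
        have hcol : ∀ x, colOf T (c⁻¹ x) = colOf T x := fun x => by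
          have := congrFun hc.2 (c⁻¹ x); simpa using this.symm
        have hfix : ∀ x, (T x : ℕ) ≠ 0 → c⁻¹ x = x := by
          intro x hx
          refine row_col_injective T (Fin.ext ?_) (hcol x)
          have h5 := (hrow x).2
          have h6 := (hrow (c⁻¹ x)).1
          have h7 := hcol x
          rcases (show (T x : ℕ) = 1 ∨ (T x : ℕ) = 2 by have := (hrow x).1; omega) with h4 | h4
          · rw [h4] at h5 ⊢
            have h8 := (hall x).1 h4
            simp only [Function.comp_apply, hh] at h8
            by_contra h9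
            rw [if_neg h9] at h8
            split_ifs at h8 with a b d <;> simp at h8 <;> omega
          · rw [h4] at h5 ⊢
            have h8 := (hall x).2 h4
            simp only [Function.comp_apply, hh] at h8
            by_contra h9
            split_ifs at h8 with a b d <;> simp at h8 <;> omega
        refine hne (inv_eq_one.mp (Equiv.ext fun x => ?_))
        by_cases hx : (T x : ℕ) = 0
        · refine row_col_injective T ?_ (hcol x)
          by_contra h9
          have h10 : (T (c⁻¹ x) : ℕ) ≠ 0 := fun h => h9 (Fin.ext (h.trans hx.symm))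
          exact h9 (congrArg T (c⁻¹.injective (hfix _ h10)))
        · exact hfix x hx
      · simp
    have hzero : colMark T (fun x => hh x + 1) = 0 := by
      refine sum_eq_zero fun c hc => ?_
      rw [rowMark, if_neg, mul_zero]
      intro hall
      obtain ⟨x, hx, hxc⟩ := (exists_cell hT ⟨1, by omega⟩ (row lam 2)).mpr h21
      rw [mem_filter] at hc
      have h4 := (hall x).1 (by rw [hx])
      have hcol : colOf T (c⁻¹ x) = row lam 2 := by
        have := congrFun hc.2 (c⁻¹ x); simp [hxc] at this; exact this.symm
      have h6 := (hrow (c⁻¹ x)).1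
      have h7 := (hrow (c⁻¹ x)).2
      rw [hcol] at h7
      simp only [Function.comp_apply, hh] at h4
      rw [hcol] at h4
      rcases (show (T (c⁻¹ x) : ℕ) = 0 ∨ (T (c⁻¹ x) : ℕ) = 1 ∨ (T (c⁻¹ x) : ℕ) = 2 by omega)
        with h8 | h8 | h8
      · rw [if_neg (by omega), if_neg (by omega), if_pos (by omega)] at h4
        simp at h4
      · rw [if_pos h8] at h4
        simp at h4
      · rw [h8] at h7
        omega
    have h0 : (spechtVec T C0 - spechtVec T (C0 ∘ g)).coeff π = 0 := by
      have := congrArg (fun z : (specht T).toSubmodule => (z : GA (3 * p))) hw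
      rw [show spechtVec T C0 - spechtVec T (C0 ∘ g) = 0 from this]
      rfl
    have e1 : (C0 ∘ g) ∘ π = fun x => hh x + 1 := by
      rw [hC0g, ← hπ]; rfl
    rw [MonoidAlgebra.coeff_sub, Finsupp.sub_apply, coeff_spechtVec, coeff_spechtVec, e1, hπ,
      hone, hzero, mul_one, mul_zero, sub_zero, Nat.cast_eq_zero, card_eq_zero] at h0
    exact absurd h0 (Finset.ne_empty_of_mem (a := (1 : Perm (Fin (3 * p)))) (by simp))
  · intro y hy
    left
    change Perm (Fin (3 * p)) at y
    have hy0 : C0 ∘ y = C0 := by
      funext x; exact Fin.ext (congrFun hy x)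
    have hinv : ∀ (y : Perm (Fin (3 * p))), C0 ∘ y = C0 → C0 ∘ ⇑y⁻¹ = C0 := fun y hy => by
      funext x
      have := congrFun hy (y⁻¹ x)
      simpa using this.symm
    apply Subtype.ext
    show regRep (3 * p) y (spechtVec T C0 - spechtVec T (C0 ∘ g)) = _
    rw [map_sub, regRep_spechtVec, regRep_spechtVec, hinv y hy0, Function.comp_assoc]
    have e : C0 ∘ (⇑g ∘ ⇑y⁻¹) = C0 ∘ g := by
      rw [← Function.comp_assoc, hC0g]
      funext x
      exact congrArg (· + 1) (congrFun (hinv y hy0) x)
    rw [e]
    rfl
  · intro g' hg'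
    obtain rfl : g' = g := List.mem_singleton.mp hg'
    apply Subtype.ext
    show (spechtVec T C0 - spechtVec T (C0 ∘ g)) +
      regRep (3 * p) g (spechtVec T C0 - spechtVec T (C0 ∘ g)) +
      regRep (3 * p) (g * g : Perm (Fin (3 * p))) (spechtVec T C0 - spechtVec T (C0 ∘ g)) = 0
    simp only [map_sub, regRep_spechtVec, Function.comp_assoc]
    have e2 : (g * g : Perm (Fin (3 * p)))⁻¹ = g := inv_eq_of_mul_eq_one_right hg3
    have e3 : (⇑g ∘ ⇑g⁻¹ : Fin (3 * p) → Fin (3 * p)) = id := by
      funext x; simp
    have e4 : (⇑g ∘ ⇑g : Fin (3 * p) → Fin (3 * p)) = ⇑g⁻¹ := by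
      rw [← Perm.coe_mul, inv_eq_of_mul_eq_one_left hg3]
    rw [e2, e3, e4, Function.comp_id]
    abel

end Vale.Agent.P197.Covering
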