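import Vale.Agent.P197.Covering.Shape

/-!
# The finitely many small steps of the covering recursion, by enumeration
-/

open Finset

namespace Vale.Agent.P197.Covering

open SymChar

/-- All weakly decreasing lists of positive numbers `≤ mx` of sum `n` and length `≤ fuel`. -/
def gens : ℕ → ℕ → ℕ → List (List ℕ)
  | 0, n, _ => if n = 0 then [[]] else []
  | fuel + 1, n, mx =>
    if n = 0 then [[]] else
      (List.range (min n mx)).flatMap fun x => (gens fuel (n - (x + 1)) (x + 1)).map ((x + 1) :: ·)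

lemma mem_gens : ∀ (fuel : ℕ) (l : List ℕ) (mx : ℕ), l.length ≤ fuel → l.Pairwise (· ≥ ·) →
    (∀ x ∈ l, 0 < x ∧ x ≤ mx) → l ∈ gens fuel l.sum mx
  | 0, [], _, _, _, _ => by simp [gens]
  | _ + 1, [], _, _, _, _ => by simp [gens]
  | 0, a :: l, _, h, _, _ => by simp at h
  | fuel + 1, a :: l, mx, h, hs, hm => by
    have ha := hm a List.mem_cons_self
    rw [List.pairwise_cons] at hs
    have ih := mem_gens fuel l a (by simpa using h) hs.2
      fun x hx => ⟨(hm x (List.mem_cons_of_mem _ hx)).1, hs.1 x hx⟩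
    have hsum : (a :: l).sum = a + l.sum := List.sum_cons
    rw [gens, if_neg (by omega), List.mem_flatMap]
    refine ⟨a - 1, List.mem_range.mpr (by omega), List.mem_map.mpr ⟨l, ?_, ?_⟩⟩
    · rw [show a - 1 + 1 = a by omega, hsum, show a + l.sum - a = l.sum by omega]
      exact ih
    · rw [show a - 1 + 1 = a by omega]

variable {n : ℕ}

lemma sort_mem_gens (c : n.Partition) : c.parts.sort (· ≥ ·) ∈ gens n n n := by
  have hsum : (c.parts.sort (· ≥ ·)).sum = n := by
    rw [← Multiset.sum_coe, Multiset.sort_eq, c.parts_sum]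
  have h := mem_gens n (c.parts.sort (· ≥ ·)) n (length_sort_le c) (Multiset.pairwise_sort _ _)
    fun x hx => by
      have hx' : x ∈ c.parts := (Multiset.mem_sort (· ≥ ·)).mp hx
      exact ⟨c.parts_pos hx', (Multiset.le_sum_of_mem hx').trans_eq c.parts_sum⟩
  rwa [hsum] at h

/-- The column lengths of a row-length function. -/
def colF (n : ℕ) (f : ℕ → ℕ) (x : ℕ) : ℕ := #((range n).filter fun i => x < f i)

/-- The residual of `f` after removing `l` is within `B` and, if `e`, not exceptional. -/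
def okF (n B : ℕ) (e : Bool) (f l : ℕ → ℕ) : Bool :=
  decide ((∀ i < n, l i ≤ f i) ∧ resMax n f l ≤ B ∧ resLen n f l ≤ B ∧
    (e = true → ¬ IsExc (resMax n f l) (resLen n f l)))

/-- Every shape in bounds admits one of the leaves `ls`, on itself or on its conjugate. -/
def checkAll (n B bd : ℕ) (e : Bool) (ls : List (ℕ → ℕ)) : Bool :=
  (gens n n n).all fun l =>
    let f := fun i => l.getD i 0
    decide (bd < f 0) || decide (bd < colF n f 0) || (e && decide (IsExc (f 0) (colF n f 0))) ||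
      ls.any fun lf => okF n B false f lf || okF n B false (colF n f) lf

lemma exists_of_checkAll {B bd : ℕ} {e : Bool} {ls : List (ℕ → ℕ)}
    (h : checkAll n B bd e ls = true) (c : n.Partition) (ha : row c 0 ≤ bd)
    (hL : colLen c 0 ≤ bd) (he : e = true → ¬ IsExc (row c 0) (colLen c 0)) :
    ∃ d, (d = c ∨ d = conjP c) ∧ ∃ l ∈ ls,
      (∀ i < n, l i ≤ row d i) ∧ resMax n (row d) l ≤ B ∧ resLen n (row d) l ≤ B := by
  have h1 := List.all_eq_true.mp h _ (sort_mem_gens c)
  change (decide (bd < row c 0) || decide (bd < colLen c 0) ||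
    (e && decide (IsExc (row c 0) (colLen c 0))) ||
    ls.any fun lf => okF n B false (row c) lf || okF n B false (colLen c) lf) = true at h1
  simp only [Bool.or_eq_true, Bool.and_eq_true, decide_eq_true_eq, List.any_eq_true] at h1
  rcases h1 with ((h1 | h1) | h1) | ⟨l, hl, h1 | h1⟩
  · omega
  · omega
  · exact absurd h1.2 (he h1.1)
  all_goals
    simp only [okF, decide_eq_true_eq] at h1
  · exact ⟨c, Or.inl rfl, l, hl, h1.1, h1.2.1, h1.2.2.1⟩
  · have hrow : row (conjP c) = colLen c := funext (row_conjP c)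
    exact ⟨conjP c, Or.inr rfl, l, hl, by rw [hrow]; exact h1.1, by rw [hrow]; exact h1.2.1,
      by rw [hrow]; exact h1.2.2.1⟩

/-- The leaves needed for the gadget with classes of three points. -/
def gadgetLeaves : List (ℕ → ℕ) :=
  [tri 8 1 0, tri 7 2 0, tri 6 3 0, tri 6 2 1, tri 5 3 1, tri 4 3 2, triCol 8 1 0, triCol 6 2 1]

theorem gadget_three (c : (14).Partition) (ha : row c 0 ≤ 12) (hL : colLen c 0 ≤ 12)
    (he : ¬ IsExc (row c 0) (colLen c 0)) :
    ∃ d, (d = c ∨ d = conjP c) ∧ ∃ l, IsGadgetLeaf 3 l ∧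
      (∀ i, l i ≤ row d i) ∧ resMax 14 (row d) l ≤ 4 ∧ resLen 14 (row d) l ≤ 4 := by
  obtain ⟨d, hd, l, hl, h1, h2⟩ := exists_of_checkAll (B := 4) (bd := 12) (e := true)
    (ls := gadgetLeaves) (by decide +kernel) c ha hL fun _ => he
  refine ⟨d, hd, l, ?_, fun i => ?_, h2⟩
  · simp only [gadgetLeaves, List.mem_cons, List.not_mem_nil, or_false] at hl
    rcases hl with rfl | rfl | rfl | rfl | rfl | rfl | rfl | rfl
    all_goals
      first
      | exact ⟨_, _, _, by norm_num, by norm_num, by norm_num, by norm_num, Or.inl rfl⟩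
      | exact ⟨_, _, _, by norm_num, by norm_num, by norm_num, by norm_num, Or.inr rfl⟩
  · rcases lt_or_ge i 14 with hi | hi
    · exact h1 i hi
    · simp only [gadgetLeaves, List.mem_cons, List.not_mem_nil, or_false] at hl
      rcases hl with rfl | rfl | rfl | rfl | rfl | rfl | rfl | rfl <;>
        simp only [tri, triCol] <;> split_ifs <;> omega

theorem single_small {q : ℕ} (hn : (n = 4 ∧ q = 1) ∨ (n = 5 ∧ q = 2) ∨ (n = 6 ∧ q = 2) ∨
      (n = 7 ∧ q = 3) ∨ (n = 8 ∧ q = 3)) (c : n.Partition) (ha : row c 0 ≤ n - 1)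
    (hL : colLen c 0 ≤ n - 1) :
    ∃ d, (d = c ∨ d = conjP c) ∧ ∃ l, (l = rowLeaf q ∨ l = colLeaf q) ∧
      (∀ i, l i ≤ row d i) ∧ resMax n (row d) l ≤ n - q - 1 ∧
        resLen n (row d) l ≤ n - q - 1 := by
  have key : checkAll n (n - q - 1) (n - 1) false [rowLeaf q, colLeaf q] = true := by
    rcases hn with ⟨rfl, rfl⟩ | ⟨rfl, rfl⟩ | ⟨rfl, rfl⟩ | ⟨rfl, rfl⟩ | ⟨rfl, rfl⟩ <;>
      decide +kernel
  obtain ⟨d, hd, l, hl, h1, h2⟩ := exists_of_checkAll key c ha hL fun h => absurd h (by simp)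
  simp only [List.mem_cons, List.not_mem_nil, or_false] at hl
  refine ⟨d, hd, l, hl, fun i => ?_, h2⟩
  rcases lt_or_ge i n with hi | hi
  · exact h1 i hi
  · rcases hl with rfl | rfl <;> simp only [rowLeaf, colLeaf] <;> split_ifs <;> omega

end Vale.Agent.P197.Covering
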