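import Vale.Agent.P197.Covering.Fit
import Vale.Agent.P197.Covering.Small

/-!
# The steps of the covering recursion

Within the bounds `row c 0 ≤ n - K`, `colLen c 0 ≤ n - K` one can always remove a leaf of the first
piece from `c` or from its conjugate so that the residual shape stays within the bounds of the
remaining pieces and avoids the two exceptional hooks.
-/

open Finset

namespace Vale.Agent.P197.Covering

open SymChar

variable {n : ℕ}

/-- The exceptional hooks, described by their first two rows. -/
lemma isExc_iff (c : (14).Partition) :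
    IsExc (row c 0) (colLen c 0) ↔ row c 1 ≤ 1 ∧ (row c 0 = 8 ∨ row c 0 = 7) := by
  have h1 := row_zero_add_colLen c (by omega)
  constructor
  · intro h
    have hL : 2 ≤ colLen c 0 := by unfold IsExc at h; omega
    have := row_zero_add_row_one_add_colLen c hL
    unfold IsExc at h
    omega
  · rintro ⟨h2, h3⟩
    have h4 := size_le_rows c (by omega)
    have h5 : row c 2 ≤ 1 := (row_antitone c (show 1 ≤ 2 by omega)).trans h2
    unfold IsExc
    interval_cases row c 2 <;> omega

lemma exists_normalised (c : n.Partition) (B : ℕ) (ha : row c 0 ≤ B) (hL : colLen c 0 ≤ B) :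
    ∃ d, (d = c ∨ d = conjP c) ∧ colLen d 0 ≤ row d 0 ∧ row d 0 ≤ B := by
  by_cases h : colLen c 0 ≤ row c 0
  · exact ⟨c, Or.inl rfl, h, ha⟩
  · exact ⟨conjP c, Or.inr rfl, by rw [colLen_zero_conjP, row_conjP]; omega,
      by rw [row_conjP]; omega⟩

lemma of_normalised {c d e : n.Partition} (hd : d = c ∨ d = conjP c)
    (he : e = d ∨ e = conjP d) : e = c ∨ e = conjP c := by
  rcases hd with rfl | rfl <;> rcases he with rfl | rfl <;> simp [conjP_conjP]

/-- Removing a single class of `q` points from a large diagram in normalised position. -/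
lemma single_large {K q m : ℕ} (c : n.Partition) (hn : n = q + m) (hq : 1 ≤ q)
    (hbig : 2 * (q + K) + 1 ≤ n) (hsq : (q - 1) * (q - 1) < n) (h3 : K = 2 → m = 14 → 3 ≤ q ∧ q ≤ 5)
    (ha : row c 0 ≤ n - K) (hLa : colLen c 0 ≤ row c 0) :
    ∃ l, (l = rowLeaf q ∨ l = colLeaf q) ∧ (∀ i, l i ≤ row c i) ∧
      resMax n (row c) l ≤ m - K ∧ resLen n (row c) l ≤ m - K ∧
      (K = 2 → m = 14 → ¬ IsExc (resMax n (row c) l) (resLen n (row c) l)) := by
  have hB := two_mul_row_one_le c
  have hsum := row_zero_add_colLen c (by omega)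
  have hqa : q ≤ row c 0 := by
    have hmul := size_le_mul c
    by_contra h
    push Not at h
    have := Nat.mul_le_mul (show colLen c 0 ≤ q - 1 by omega) (show row c 0 ≤ q - 1 by omega)
    omega
  have hmax : resMax n (row c) (rowLeaf q) ≤ max (row c 0 - q) (row c 1) :=
    resMax_le c (by simp only [rowLeaf, if_true]; omega) (le_max_right _ _)
  have hlen := resLen_le c (rowLeaf q)
  by_cases hx : K = 2 ∧ m = 14 ∧ IsExc (resMax n (row c) (rowLeaf q)) (resLen n (row c) (rowLeaf q))
  · obtain ⟨hK, hm, hx⟩ := hx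
    obtain ⟨hq3, hq5⟩ := h3 hK hm
    unfold IsExc at hx
    have hrows := row_zero_add_row_one_add_colLen c (by omega)
    have h10 := row_antitone c (show 0 ≤ 1 by omega)
    have hlt : colLen c 0 - 1 < n := by have := colLen_le c 0; omega
    have hmax' : resMax n (row c) (colLeaf q) ≤ m - K :=
      resMax_le c (by simp only [colLeaf, if_pos (show 0 < q by omega)]; omega) (by omega)
    have hlen' := resLen_le c (colLeaf q)
    have h9 : row c 0 - 1 ≤ resMax n (row c) (colLeaf q) := by
      have := Finset.le_sup (f := fun i => row c i - colLeaf q i)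
        (mem_range.mpr (show 0 < n by omega))
      simpa [colLeaf, show 0 < q by omega, resMax] using this
    exact ⟨colLeaf q, Or.inr rfl, colLeaf_le c (by omega), hmax', by omega,
      fun _ _ => by unfold IsExc; omega⟩
  · exact ⟨rowLeaf q, Or.inl rfl, rowLeaf_le c hqa, by omega, by omega,
      fun h1 h2 h4 => hx ⟨h1, h2, h4⟩⟩

/-- One single class of `q` points followed by pieces of total size `m` with `K` gadgets. -/
theorem single_step {K q m : ℕ} (c : n.Partition) (hn : n = q + m) (hm : 4 * K * K - K ≤ m)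
    (hq : 1 ≤ q) (hq2 : q ≤ 2 * K + 1) (h1 : K = 1 → q = 3 → 4 ≤ m)
    (h3 : K = 2 → m = 14 → 3 ≤ q) (ha : row c 0 + K ≤ n) (hL : colLen c 0 + K ≤ n) :
    ∃ d, (d = c ∨ d = conjP c) ∧ ∃ l, (l = rowLeaf q ∨ l = colLeaf q) ∧ (∀ i, l i ≤ row d i) ∧
      resMax n (row d) l ≤ m - K ∧ resLen n (row d) l ≤ m - K ∧
      (K = 2 → m = 14 → ¬ IsExc (resMax n (row d) l) (resLen n (row d) l)) := by
  obtain ⟨d, hd, hLa, had⟩ := exists_normalised c (n - K) (by omega) (by omega)
  rcases Nat.lt_or_ge n (2 * (q + K) + 1) with hs | hs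
  · rcases Nat.lt_or_ge K 2 with hK | hK
    · interval_cases K
      · -- no gadget: the one point left is removed from any row
        obtain rfl : q = 1 := by omega
        have hmul := size_le_mul d
        have hB := two_mul_row_one_le d
        have hsum := row_zero_add_colLen d (by omega)
        have hpos : 1 ≤ row d 0 := by
          by_contra h
          simp only [show row d 0 = 0 by omega, mul_zero] at hmul
          omega
        refine ⟨d, hd, rowLeaf 1, Or.inl rfl, rowLeaf_le d hpos, ?_, ?_, by omega⟩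
        · exact resMax_le d (by simp only [rowLeaf, if_true]; omega) (by omega)
        · rcases Nat.lt_or_ge 1 (row d 0) with h | h
          · have := resLen_le d (rowLeaf 1)
            omega
          · have h0 : 0 < colLen d 0 := (pos_colLen_iff d 0).mpr hpos
            have := resLen_lt d (l := rowLeaf 1) h0 (by simp only [rowLeaf, if_true]; omega)
            omega
      · obtain ⟨e, he, l, hl, h4, h5, h6⟩ := single_small (q := q) (by omega) c (by omega)
          (by omega)
        exact ⟨e, he, l, hl, h4, by omega, by omega, by omega⟩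
    · exfalso
      have h8 : 8 * K ≤ 4 * K * K := by nlinarith
      omega
  · have hsq : (q - 1) * (q - 1) < n := by
      rcases Nat.lt_or_ge q (K + 1) with h | h
      · have h5 : (q - 1) * (q - 1) ≤ K * K :=
          Nat.mul_le_mul (show q - 1 ≤ K by omega) (show q - 1 ≤ K by omega)
        have h6 : K ≤ K * K := Nat.le_mul_self K
        rw [Nat.mul_assoc] at hm
        omega
      · have h5 : (q - 1) * (q - 1) ≤ 2 * K * (2 * K) :=
          Nat.mul_le_mul (show q - 1 ≤ 2 * K by omega) (show q - 1 ≤ 2 * K by omega)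
        rw [show 2 * K * (2 * K) = 4 * K * K by ring] at h5
        omega
    obtain ⟨l, hl, rest⟩ := single_large d hn hq hs hsq (fun a b => ⟨h3 a b, by omega⟩) had hLa
    exact ⟨d, hd, l, hl, rest⟩

/-- The first gadget of a tail with `K ≥ 2` gadgets; its classes have `2K - 1` points. -/
theorem gadget_step {K : ℕ} (hK : 2 ≤ K) (c : n.Partition) (hn : n + K = 4 * K * K)
    (ha : row c 0 + K ≤ n) (hL : colLen c 0 + K ≤ n)
    (hexc : K = 2 → ¬ IsExc (row c 0) (colLen c 0)) :
    ∃ d, (d = c ∨ d = conjP c) ∧ ∃ l, IsGadgetLeaf (2 * K - 1) l ∧ (∀ i, l i ≤ row d i) ∧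
      resMax n (row d) l ≤ 4 * ((K - 1) * (K - 1)) ∧
      resLen n (row d) l ≤ 4 * ((K - 1) * (K - 1)) := by
  rcases (show K = 2 ∨ 3 ≤ K by omega) with rfl | hK3
  · obtain rfl : n = 14 := by omega
    exact gadget_three c (by omega) (by omega) (hexc rfl)
  set B := 4 * ((K - 1) * (K - 1)) with hBdef
  obtain ⟨j, rfl⟩ : ∃ j, K = j + 3 := ⟨K - 3, by omega⟩
  have hB' : B + 7 * (j + 3) = n + 4 := by
    rw [hBdef, show j + 3 - 1 = j + 2 by omega]; linarith
  obtain ⟨d, hd, hLa, had⟩ := exists_normalised c (n - (j + 3)) (by omega) (by omega)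
  have hB := two_mul_row_one_le d
  have hsum := row_zero_add_colLen d (by omega)
  have hBig : 16 * (j + 3) ≤ 4 * (j + 3) * (j + 3) + 12 := by nlinarith
  by_cases hbig : 3 * (2 * (j + 3) - 1) - 1 ≤ row d 0
  · have hL2 : 2 ≤ colLen d 0 := by
      have hmul := size_le_mul d
      by_contra h
      have : colLen d 0 * row d 0 ≤ 1 * row d 0 := Nat.mul_le_mul_right _ (by omega)
      omega
    have hone : 1 ≤ row d 1 := (pos_colLen_iff d 1).mp (by omega)
    refine ⟨d, hd, tri (3 * (2 * (j + 3) - 1) - 1) 1 0, ?_, tri_le d hbig hone (Nat.zero_le _),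
      ?_, ?_⟩
    · exact ⟨_, _, _, Nat.zero_lt_one, by omega, by omega, by omega, Or.inl rfl⟩
    · exact resMax_le d (by simp only [tri, if_true]; omega) (by omega)
    · have hlen := resLen_le d (tri (3 * (2 * (j + 3) - 1) - 1) 1 0)
      rcases Nat.eq_zero_or_pos j with rfl | hj
      · rcases Nat.lt_or_ge 16 (colLen d 0) with h | h
        · have hrows := row_zero_add_row_one_add_colLen d hL2
          have hlt := resLen_lt d (l := tri (3 * (2 * (0 + 3) - 1) - 1) 1 0) (i := 1) (by omega)
            (by simp [tri]; omega)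
          omega
        · omega
      · omega
  · obtain ⟨e, he, l, hl, hsub⟩ := exists_gadgetLeaf_le (p := 2 * (j + 3) - 1) (by omega) d
      (by
        rw [show 2 * (j + 3) - 1 = 2 * j + 5 by omega]
        nlinarith [hn])
      (by omega) hLa
    have hbound : row e 0 ≤ B ∧ colLen e 0 ≤ B := by
      rcases he with rfl | rfl
      · omega
      · rw [row_conjP, colLen_zero_conjP]; omega
    refine ⟨e, of_normalised hd he, l, hl, hsub, ?_, ?_⟩
    · exact resMax_le e (by omega) ((row_antitone e (Nat.zero_le 1)).trans hbound.1)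
    · exact (resLen_le e l).trans hbound.2

end Vale.Agent.P197.Covering
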