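import Vale.Agent.P197.Covering.Defs

/-!
# Good vectors: transport, conjugation and induction
-/

open Finset Equiv Representation
open scoped TensorProduct

namespace Vale.Agent.P197.Covering

open SymChar Littlewood

section Iso

variable {G : Type} [Group G] [Fintype G]

/-- Representations with the same irreducible character are isomorphic. -/
lemma exists_injective_of_character_eq {V W : Type} [AddCommGroup V] [Module ℂ V]
    [FiniteDimensional ℂ V] [AddCommGroup W] [Module ℂ W] [FiniteDimensional ℂ W]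
    (ρ : Representation ℂ G V) (σ : Representation ℂ G W) (hirr : σ.character ∈ IrrSet G)
    (h : ρ.character = σ.character) :
    ∃ f : IntertwiningMap ρ σ, Function.Injective f := by
  classical
  obtain ⟨d, τ, hτ, hτσ⟩ := hirr
  have hne : (Nat.card G : ℂ) ≠ 0 := by simp [Nat.card_eq_fintype_card]
  have : Invertible (Nat.card G : ℂ) := invertibleOfNonzero hne
  have hnt : ∀ {V' W' : Type} [AddCommGroup V'] [Module ℂ V'] [FiniteDimensional ℂ V']
      [AddCommGroup W'] [Module ℂ W'] [FiniteDimensional ℂ W'] (ρ' : Representation ℂ G V')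
      (σ' : Representation ℂ G W'), ρ'.character = τ.character → σ'.character = τ.character →
      ∃ f : IntertwiningMap ρ' σ', f ≠ 0 := by
    intro V' W' _ _ _ _ _ _ ρ' σ' h1 h2
    have h3 := card_inv_mul_sum_char_mul_char_eq_finrank ρ' σ'
    have hmem := character_mem_irrSet τ
    rw [h1, h2, irr_inner hmem hmem, if_pos rfl, ← Nat.card_eq_fintype_card,
      inv_mul_cancel₀ hne] at h3
    have : Nontrivial (IntertwiningMap ρ' σ') := by
      apply Module.nontrivial_of_finrank_pos (R := ℂ)
      have : Module.finrank ℂ (IntertwiningMap ρ' σ') = 1 := by exact_mod_cast h3.symm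
      omega
    exact exists_ne 0
  obtain ⟨f1, hf1⟩ := hnt ρ τ (h.trans hτσ.symm) rfl
  obtain ⟨f2, hf2⟩ := hnt τ σ rfl hτσ.symm
  have hs : Function.Surjective f1 :=
    (IsIrreducible.surjective_or_eq_zero f1).resolve_right hf1
  have hdim : Module.finrank ℂ V = Module.finrank ℂ (Fin d → ℂ) := by
    have h4 := congrFun (h.trans hτσ.symm) 1
    rw [char_one, char_one] at h4
    exact_mod_cast h4
  refine ⟨f2.comp f1, ?_⟩
  intro x y hxy
  have h5 : f1 x = f1 y := (IsIrreducible.injective_or_eq_zero f2).resolve_right hf2 hxy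
  exact (LinearMap.injective_iff_surjective_of_finrank_eq_finrank hdim).mpr
    (show Function.Surjective f1.toLinearMap from hs) h5

end Iso

section Transport

variable {n : ℕ} {ι : Type*} {cls : Fin n → ι} {gs : List (Perm (Fin n))}
  {χ : Perm (Fin n) → ℂ}

/-- A good vector lives in every representation of the same irreducible character. -/
lemma GoodC.exists_vec (h : GoodC cls gs χ) (hirr : χ ∈ IrrSet (Perm (Fin n))) {W : Type}
    [AddCommGroup W] [Module ℂ W] [FiniteDimensional ℂ W]
    (σ : Representation ℂ (Perm (Fin n)) W) (hσ : σ.character = χ) :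
    ∃ v : W, v ≠ 0 ∧ (∀ y : Perm (Fin n), cls ∘ y = cls → σ y v = v ∨ σ y v = -v) ∧
      ∀ g ∈ gs, v + σ g v + σ (g * g) v = 0 := by
  obtain ⟨d, ρ, hρ, v, hv, hy, hg⟩ := h
  obtain ⟨f, hf⟩ := exists_injective_of_character_eq ρ σ (hσ ▸ hirr) (hρ.trans hσ.symm)
  refine ⟨f v, fun h0 => hv (hf (by rw [h0, map_zero])), fun y hy' => ?_, fun g hg' => ?_⟩
  · rw [← f.isIntertwining]
    rcases hy y hy' with h1 | h1 <;> rw [h1]
    · exact Or.inl rfl
    · exact Or.inr (map_neg f v)
  · rw [← f.isIntertwining, ← f.isIntertwining, ← map_add, ← map_add, hg g hg', map_zero]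

/-- The vector of a good shape may be taken in any space. -/
lemma GoodC.of_rep {V : Type} [AddCommGroup V] [Module ℂ V] [FiniteDimensional ℂ V]
    (ρ : Representation ℂ (Perm (Fin n)) V) (hρ : ρ.character = χ) (v : V) (hv : v ≠ 0)
    (hy : ∀ y : Perm (Fin n), cls ∘ y = cls → ρ y v = v ∨ ρ y v = -v)
    (hg : ∀ g ∈ gs, v + ρ g v + ρ (g * g) v = 0) : GoodC cls gs χ := by
  let e := (Module.finBasis ℂ V).equivFun
  have ht : ∀ g, transport e ρ g (e v) = e (ρ g v) := fun g => by
    simp [transport, LinearEquiv.conj_apply]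
  refine ⟨_, transport e ρ, ?_, e v, by simpa using hv, fun y hy' => ?_, fun g hg' => ?_⟩
  · rw [← hρ]
    funext g
    exact LinearMap.trace_conj' _ e
  · rw [ht]
    rcases hy y hy' with h1 | h1 <;> rw [h1]
    · exact Or.inl rfl
    · exact Or.inr (map_neg e v)
  · rw [ht, ht, ← map_add, ← map_add, hg g hg', map_zero]

/-- Twisting by the sign keeps good vectors. -/
lemma GoodC.sign (h : GoodC cls gs χ) (hgs : ∀ g ∈ gs, Perm.sign g = 1) :
    GoodC cls gs (fun π => ((Perm.sign π : ℤ) : ℂ) * χ π) := by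
  obtain ⟨d, ρ, hρ, v, hv, hy, hg⟩ := h
  have ha : ∀ π w, signTwist ρ π w = ((Perm.sign π : ℤ) : ℂ) • ρ π w := fun π w => rfl
  refine ⟨d, signTwist ρ, ?_, v, hv, fun y hy' => ?_, fun g hg' => ?_⟩
  · funext π
    show LinearMap.trace ℂ _ (((Perm.sign π : ℤ) : ℂ) • ρ π) = _
    rw [map_smul, ← hρ]
    rfl
  · rw [ha]
    rcases hy y hy' with h1 | h1 <;> rcases Int.units_eq_one_or (Perm.sign y) with h2 | h2 <;>
      rw [h1, h2] <;> simp
  · rw [ha, ha, map_mul, hgs g hg']
    simpa using hg g hg'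

end Transport

/-! ### The structure of layouts -/

lemma layGs_cube (ps : List Piece) : ∀ g ∈ layGs ps, g * g * g = 1 := by
  induction ps with
  | nil => simp [layGs]
  | cons P ps ih =>
    have hP : ∀ g ∈ P.perms, g * g * g = 1 := by
      cases P with
      | single q => simp [Piece.perms]
      | gadget p =>
        intro g hg
        rw [List.mem_singleton.mp hg]
        show (finProdFinEquiv (m := 3) (n := p)).permCongrHom _ *
          (finProdFinEquiv (m := 3) (n := p)).permCongrHom _ *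
          (finProdFinEquiv (m := 3) (n := p)).permCongrHom _ = 1
        rw [← map_mul, ← map_mul]
        refine (congrArg _ (Equiv.ext fun x => ?_)).trans (map_one _)
        obtain ⟨a, b⟩ := x
        fin_cases a <;> rfl
    intro g hg
    rcases mem_layGs_cons.mp hg with ⟨g, hg', rfl⟩ | ⟨g, hg', rfl⟩
    · show (youngHom P.size (total ps) (g, 1) * youngHom P.size (total ps) (g, 1) *
        youngHom P.size (total ps) (g, 1) : Perm (Fin (P.size + total ps))) = 1
      rw [← map_mul, ← map_mul, Prod.mk_mul_mk, Prod.mk_mul_mk, hP g hg', mul_one, mul_one,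
        Prod.mk_one_one, map_one]
    · show (youngHom P.size (total ps) (1, g) * youngHom P.size (total ps) (1, g) *
        youngHom P.size (total ps) (1, g) : Perm (Fin (P.size + total ps))) = 1
      rw [← map_mul, ← map_mul, Prod.mk_mul_mk, Prod.mk_mul_mk, ih g hg', mul_one, mul_one,
        Prod.mk_one_one, map_one]

lemma layGs_sign (ps : List Piece) (g : Perm (Fin (total ps))) (hg : g ∈ layGs ps) :
    Perm.sign g = 1 := by
  have h := congrArg Perm.sign (layGs_cube ps g hg)
  rwa [map_mul, map_mul, Int.units_mul_self, one_mul, map_one] at h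

/-- A permutation preserving the classes of `P :: ps` splits. -/
lemma exists_split {P : Piece} {ps : List Piece} {y : Perm (Fin (P.size + total ps))}
    (hy : layCls (P :: ps) ∘ y = layCls (P :: ps)) :
    ∃ y₁ : Perm (Fin P.size), ∃ y₂ : Perm (Fin (total ps)),
      P.cls ∘ y₁ = P.cls ∧ layCls ps ∘ y₂ = layCls ps ∧ y = youngHom P.size (total ps) (y₁, y₂) := by
  obtain ⟨⟨y₁, y₂⟩, huv⟩ : finSumFinEquiv.symm.permCongr y ∈
      (Perm.sumCongrHom (Fin P.size) (Fin (total ps))).range := by
    refine Perm.mem_sumCongrHom_range_of_perm_mapsTo_inl ?_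
    rintro _ ⟨i, rfl⟩
    rcases h : finSumFinEquiv.symm.permCongr y (Sum.inl i) with j | j
    · exact ⟨j, rfl⟩
    · exfalso
      have h1 := congrFun hy (finSumFinEquiv (Sum.inl i))
      rw [Equiv.permCongr_apply, Equiv.symm_symm, Equiv.symm_apply_eq] at h
      have h2 : layCls (P :: ps) (y (finSumFinEquiv (Sum.inl i))) =
          layCls (P :: ps) (finSumFinEquiv (Sum.inl i)) := h1
      rw [h, layCls_cons_inl, layCls_cons_inr] at h2
      exact Nat.succ_ne_zero _ (Prod.mk.inj h2).1
  have hy' : y = youngHom P.size (total ps) (y₁, y₂) := by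
    ext x
    simp [youngHom, huv, Equiv.permCongr_apply]
  refine ⟨y₁, y₂, funext fun i => ?_, funext fun j => ?_, hy'⟩
  · have e : y (finSumFinEquiv (Sum.inl i)) = finSumFinEquiv (Sum.inl (y₁ i)) := by
      simp [hy', youngHom, Equiv.permCongr_apply, -finSumFinEquiv_apply_left,
        -finSumFinEquiv_apply_right]
    have h1 : layCls (P :: ps) (y (finSumFinEquiv (Sum.inl i))) =
        layCls (P :: ps) (finSumFinEquiv (Sum.inl i)) := congrFun hy _
    rw [e, layCls_cons_inl, layCls_cons_inl] at h1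
    exact (Prod.mk.inj h1).2
  · have e : y (finSumFinEquiv (Sum.inr j)) = finSumFinEquiv (Sum.inr (y₂ j)) := by
      simp [hy', youngHom, Equiv.permCongr_apply, -finSumFinEquiv_apply_left,
        -finSumFinEquiv_apply_right]
    have h1 : layCls (P :: ps) (y (finSumFinEquiv (Sum.inr j))) =
        layCls (P :: ps) (finSumFinEquiv (Sum.inr j)) := congrFun hy _
    rw [e, layCls_cons_inr, layCls_cons_inr] at h1
    exact Prod.ext (Nat.add_right_cancel (Prod.mk.inj h1).1) (Prod.mk.inj h1).2

/-- Good shapes combine: the shape `c` restricted to the Young subgroup meets `lam × kap`. -/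
theorem Good.cons {P : Piece} {ps : List Piece} {c : (P.size + total ps).Partition}
    {lam : P.size.Partition} {kap : (total ps).Partition}
    (h1 : GoodC P.cls P.perms (chiP lam)) (h2 : Good ps kap)
    (hne : ∑ y : Perm (Fin P.size), ∑ z : Perm (Fin (total ps)),
      chiP c (youngHom P.size (total ps) (y, z)) * (chiP lam y * chiP kap z) ≠ 0) :
    Good (P :: ps) c := by
  classical
  obtain ⟨dc, σ, _, hσ⟩ := chiP_mem_irrSet c
  obtain ⟨d1, ρ₁, hρ₁i, hρ₁⟩ := chiP_mem_irrSet lam
  obtain ⟨d2, ρ₂, hρ₂i, hρ₂⟩ := chiP_mem_irrSet kap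
  obtain ⟨v₁, hv₁, hy₁, hg₁⟩ := h1.exists_vec (chiP_mem_irrSet lam) ρ₁ hρ₁
  obtain ⟨v₂, hv₂, hy₂, hg₂⟩ := GoodC.exists_vec h2 (chiP_mem_irrSet kap) ρ₂ hρ₂
  let τ : Representation ℂ (Perm (Fin P.size) × Perm (Fin (total ps)))
      ((Fin d1 → ℂ) ⊗[ℂ] (Fin d2 → ℂ)) :=
    tprod (ρ₁.comp (MonoidHom.fst _ _)) (ρ₂.comp (MonoidHom.snd _ _))
  let σ' : Representation ℂ (Perm (Fin P.size) × Perm (Fin (total ps))) (Fin dc → ℂ) :=
    σ.comp (youngHom P.size (total ps))
  have hcard : (Nat.card (Perm (Fin P.size) × Perm (Fin (total ps))) : ℂ) ≠ 0 := by simp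
  have : Invertible (Nat.card (Perm (Fin P.size) × Perm (Fin (total ps))) : ℂ) :=
    invertibleOfNonzero hcard
  obtain ⟨Φ, hΦ⟩ : ∃ Φ : IntertwiningMap τ σ', Φ ≠ 0 := by
    have h3 := card_inv_mul_sum_char_mul_char_eq_finrank τ σ'
    have hsum : ∑ x : Perm (Fin P.size) × Perm (Fin (total ps)),
        σ'.character x * τ.character x⁻¹ = ∑ y : Perm (Fin P.size), ∑ z : Perm (Fin (total ps)),
          chiP c (youngHom P.size (total ps) (y, z)) * (chiP lam y * chiP kap z) := by
      rw [Fintype.sum_prod_type]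
      refine sum_congr rfl fun y _ => sum_congr rfl fun z _ => ?_
      have e1 : σ'.character (y, z) = chiP c (youngHom P.size (total ps) (y, z)) := by
        rw [← hσ]; rfl
      have e2 : τ.character (y, z)⁻¹ = chiP lam y * chiP kap z := by
        simp only [τ, char_tensor, Pi.mul_apply]
        show ρ₁.character y⁻¹ * ρ₂.character z⁻¹ = _
        rw [hρ₁, hρ₂]
        simp [chiP, chiC, chi_inv]
      rw [e1, e2]
    rw [hsum] at h3
    have : Nontrivial (IntertwiningMap τ σ') := by
      apply Module.nontrivial_of_finrank_pos (R := ℂ)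
      refine Nat.pos_of_ne_zero fun h0 => ?_
      rw [h0, Nat.cast_zero] at h3
      exact mul_ne_zero (inv_ne_zero hcard) hne h3
    exact exists_ne 0
  have hτ : ∀ y z a b, τ (y, z) (a ⊗ₜ[ℂ] b) = ρ₁ y a ⊗ₜ[ℂ] ρ₂ z b := fun y z a b => rfl
  have hΦτ : ∀ y z a b, Φ (ρ₁ y a ⊗ₜ[ℂ] ρ₂ z b) =
      σ (youngHom P.size (total ps) (y, z)) (Φ (a ⊗ₜ[ℂ] b)) := fun y z a b => by
    rw [← hτ, Φ.isIntertwining]; rfl
  have hv : Φ (v₁ ⊗ₜ[ℂ] v₂) ≠ 0 := by
    intro h0
    let A : Subrepresentation ρ₁ :=
      { toSubmodule := LinearMap.ker (Φ.toLinearMap ∘ₗ (TensorProduct.mk ℂ _ _).flip v₂)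
        apply_mem_toSubmodule := fun y a ha => by
          simp only [LinearMap.mem_ker, LinearMap.comp_apply, LinearMap.flip_apply,
            TensorProduct.mk_apply, IntertwiningMap.coe_toLinearMap] at ha ⊢
          have := hΦτ y 1 a v₂
          rw [map_one, Module.End.one_apply] at this
          rw [this, ha, map_zero] }
    have hA : A = ⊤ := by
      refine (eq_bot_or_eq_top A).resolve_left fun hA => hv₁ ?_
      have : v₁ ∈ A.toSubmodule := by simpa [A] using h0
      rw [hA] at this
      exact (Submodule.mem_bot ℂ).mp this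
    have hAall : ∀ a, Φ (a ⊗ₜ[ℂ] v₂) = 0 := fun a => by
      have : a ∈ A.toSubmodule := by rw [hA]; exact Submodule.mem_top
      simpa [A] using this
    let B : Subrepresentation ρ₂ :=
      { toSubmodule := ⨅ a, LinearMap.ker (Φ.toLinearMap ∘ₗ TensorProduct.mk ℂ _ _ a)
        apply_mem_toSubmodule := fun z b hb => by
          simp only [Submodule.mem_iInf, LinearMap.mem_ker, LinearMap.comp_apply,
            TensorProduct.mk_apply, IntertwiningMap.coe_toLinearMap] at hb ⊢
          intro a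
          have := hΦτ 1 z a b
          rw [map_one, Module.End.one_apply] at this
          rw [this, hb, map_zero] }
    have hB : B = ⊤ := by
      refine (eq_bot_or_eq_top B).resolve_left fun hB => hv₂ ?_
      have : v₂ ∈ B.toSubmodule := by simpa [B] using hAall
      rw [hB] at this
      exact (Submodule.mem_bot ℂ).mp this
    apply hΦ
    refine IntertwiningMap.ext (TensorProduct.ext' fun a b => ?_)
    have : b ∈ B.toSubmodule := by rw [hB]; exact Submodule.mem_top
    simp only [B, Submodule.mem_iInf, LinearMap.mem_ker, LinearMap.comp_apply,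
      TensorProduct.mk_apply, IntertwiningMap.coe_toLinearMap] at this
    simpa using this a
  refine ⟨dc, σ, hσ, Φ (v₁ ⊗ₜ[ℂ] v₂), hv, fun y hy => ?_, fun g hg => ?_⟩
  · obtain ⟨y₁, y₂, hc₁, hc₂, rfl⟩ := exists_split hy
    show σ (youngHom P.size (total ps) (y₁, y₂) : Perm (Fin (P.size + total ps))) _ = _ ∨
      σ (youngHom P.size (total ps) (y₁, y₂) : Perm (Fin (P.size + total ps))) _ = _
    rw [← hΦτ]
    rcases hy₁ y₁ hc₁ with e1 | e1 <;> rcases hy₂ y₂ hc₂ with e2 | e2 <;> rw [e1, e2]
    · exact Or.inl rfl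
    · exact Or.inr (by rw [TensorProduct.tmul_neg, map_neg])
    · exact Or.inr (by rw [TensorProduct.neg_tmul, map_neg])
    · exact Or.inl (by rw [TensorProduct.tmul_neg, TensorProduct.neg_tmul, neg_neg])
  · rcases mem_layGs_cons.mp hg with ⟨g, hg', rfl⟩ | ⟨g, hg', rfl⟩
    · show Φ (v₁ ⊗ₜ[ℂ] v₂) +
        σ (youngHom P.size (total ps) (g, 1) : Perm (Fin (P.size + total ps))) (Φ (v₁ ⊗ₜ[ℂ] v₂)) +
        σ (youngHom P.size (total ps) (g, 1) * youngHom P.size (total ps) (g, 1) :
          Perm (Fin (P.size + total ps))) (Φ (v₁ ⊗ₜ[ℂ] v₂)) = 0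
      rw [← map_mul, Prod.mk_mul_mk, mul_one, ← hΦτ, ← hΦτ, map_one, Module.End.one_apply,
        ← map_add, ← map_add, ← TensorProduct.add_tmul, ← TensorProduct.add_tmul, hg₁ g hg',
        TensorProduct.zero_tmul, map_zero]
    · show Φ (v₁ ⊗ₜ[ℂ] v₂) +
        σ (youngHom P.size (total ps) (1, g) : Perm (Fin (P.size + total ps))) (Φ (v₁ ⊗ₜ[ℂ] v₂)) +
        σ (youngHom P.size (total ps) (1, g) * youngHom P.size (total ps) (1, g) :
          Perm (Fin (P.size + total ps))) (Φ (v₁ ⊗ₜ[ℂ] v₂)) = 0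
      rw [← map_mul, Prod.mk_mul_mk, mul_one, ← hΦτ, ← hΦτ, map_one, Module.End.one_apply,
        ← map_add, ← map_add, ← TensorProduct.tmul_add, ← TensorProduct.tmul_add, hg₂ g hg',
        TensorProduct.tmul_zero, map_zero]

/-- Conjugating the shape keeps it good. -/
theorem goodC_conjP {n : ℕ} {ι : Type*} {cls : Fin n → ι} {gs : List (Perm (Fin n))}
    {c : n.Partition} (h : GoodC cls gs (chiP c)) (hgs : ∀ g ∈ gs, Perm.sign g = 1) :
    GoodC cls gs (chiP (conjP c)) := by
  have : chiP (conjP c) = fun π => ((Perm.sign π : ℤ) : ℂ) * chiP c π := by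
    funext π
    simp [chiP, chiC, chi_conjP]
  rw [this]
  exact h.sign hgs

theorem Good.conjP {ps : List Piece} {c : (total ps).Partition} (h : Good ps c) :
    Good ps (SymChar.conjP c) :=
  goodC_conjP h (layGs_sign ps)

end Vale.Agent.P197.Covering
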