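import Vale.Agent.P197.Covering.Defs
import Vale.Agent.P197.Staircase.Padding

/-!
# The skew rule

For `lam ⊆ c`, the product `χ^lam × χ^kap` occurs in the restriction of `χ^c` to the Young
subgroup, `kap` being the sorted row lengths of `c / lam`.
-/

open Finset Equiv

namespace Vale.Agent.P197.Covering

open SymChar Littlewood

variable {N n k l : ℕ}

/-- The beta set of a partition, padded to length `N`. -/
def betaN (N : ℕ) (p : n.Partition) (i : Fin N) : ℤ := row p i + delta N i

lemma betaN_self (p : n.Partition) : betaN n p = beta p := rfl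

lemma sum_range_row_of_le (p : n.Partition) (h : n ≤ N) : ∑ i ∈ range N, row p i = n := by
  conv_rhs => rw [← sum_range_row p]
  exact (sum_subset (range_subset_range.mpr h) fun i _ hi =>
    row_eq_zero_of_le p (not_lt.mp (mt mem_range.mpr hi))).symm

lemma isBeta_betaN (p : n.Partition) (h : n ≤ N) : IsBeta n (betaN N p) := by
  refine ⟨fun i j hij => ?_, fun i => ?_, ?_⟩
  · have h1 := delta_strictAnti hij
    have h2 := row_antitone p (show (i : ℕ) ≤ j from hij.le)
    simp only [betaN]; omega
  · have := delta_nonneg i
    simp only [betaN]; omega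
  · simp only [betaN, sum_add_distrib]
    congr 1
    rw [← Nat.cast_sum, Fin.sum_univ_eq_sum_range (fun i => row p i) N, sum_range_row_of_le p h]

lemma chi_betaN {α : Type*} [Fintype α] [DecidableEq α] (p : n.Partition) (π : Perm α) :
    ∀ N, n ≤ N → chi (betaN N p) π = chi (beta p) π := by
  intro N h
  induction N, h using Nat.le_induction with
  | base => rw [betaN_self]
  | succ N h ih =>
    have h1 : betaN (N + 1) p = pad (betaN N p) := by
      funext i
      refine Fin.lastCases ?_ (fun i => ?_) i
      · simp only [betaN, pad, Fin.snoc_last, delta, Fin.val_last, row_eq_zero_of_le p h]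
        omega
      · simp only [betaN, pad, Fin.snoc_castSucc, delta, Fin.val_castSucc]; omega
    rw [h1, chi_pad, ih]

lemma eq_one_of_comp_anti {b : Fin N → ℤ} (hb : ∀ i j, i < j → b j < b i) (u : Perm (Fin N))
    (hu : ∀ i j, i < j → b (u j) < b (u i)) : u = 1 := by
  have hm : StrictMono u := fun i j hij => by
    rcases lt_trichotomy (u i) (u j) with h | h | h
    · exact h
    · exact absurd (u.injective h) hij.ne
    · exact absurd (hb _ _ h) (not_lt.mpr (hu i j hij).le)
  refine Equiv.ext fun i => ?_
  have := congrArg (fun f : Fin N ≃o Fin N => f i) (Subsingleton.elim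
    (StrictMono.orderIsoOfSurjective u hm u.surjective) (OrderIso.refl (Fin N)))
  simpa using this

/-- Pairing an arbitrary exponent vector with a beta set. -/
lemma sum_chi_mul_beta {α : Type} [Fintype α] [DecidableEq α] {a b : Fin N → ℤ}
    (hb : IsBeta (Fintype.card α) b)
    (ha : ∑ i, a i = (Fintype.card α : ℤ) + ∑ i, delta N i) :
    ∑ y : Perm α, chi a y * chi b y = ((Fintype.card α).factorial : ℤ) *
      ∑ w : Perm (Fin N), (Perm.sign w : ℤ) * if ∀ i, a i = b (w i) then 1 else 0 := by
  classical
  have hbinj : Function.Injective b := fun i j hij => by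
    rcases lt_trichotomy i j with h | h | h
    · exact absurd hij (ne_of_gt (hb.anti _ _ h))
    · exact h
    · exact absurd hij (ne_of_lt (hb.anti _ _ h))
  have hzero : (∀ y : Perm α, chi a y = 0) → (∀ w : Perm (Fin N), ¬ ∀ i, a i = b (w i)) →
      ∑ y : Perm α, chi a y * chi b y = ((Fintype.card α).factorial : ℤ) *
        ∑ w : Perm (Fin N), (Perm.sign w : ℤ) * if ∀ i, a i = b (w i) then 1 else 0 := by
    intro h1 h2
    rw [sum_eq_zero fun y _ => by rw [h1, zero_mul],
      sum_eq_zero fun w _ => by rw [if_neg (h2 w), mul_zero], mul_zero]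
  by_cases hneg : ∃ i, a i < 0
  · obtain ⟨i, hi⟩ := hneg
    exact hzero (chi_eq_zero_of_neg a hi) fun w hw => by
      have := hb.nonneg (w i); rw [← hw i] at this; omega
  push Not at hneg
  by_cases hinj : Function.Injective a
  swap
  · exact hzero (chi_eq_zero_of_not_injective a hinj) fun w hw =>
      hinj fun i j hij => w.injective (hbinj (by rw [← hw, ← hw, hij]))
  set v := Tuple.sort fun i => -a i
  have hA : IsBeta (Fintype.card α) (a ∘ v) := ⟨fun i j hij => by
      have h1 : -a (v i) ≤ -a (v j) := Tuple.monotone_sort (fun i => -a i) hij.le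
      have h2 : a (v i) ≠ a (v j) := fun h => hij.ne (v.injective (hinj h))
      show a (v j) < a (v i)
      omega,
    fun i => hneg _, (Equiv.sum_comp v a).trans ha⟩
  have hsq : (Perm.sign v : ℤ) * (Perm.sign v : ℤ) = 1 := by
    rw [← Units.val_mul, Int.units_mul_self, Units.val_one]
  have h1 := sum_chi_mul_chi hA hb
  simp only [chi_perm, mul_assoc, ← mul_sum] at h1
  have h2 : ∑ y : Perm α, chi a y * chi b y =
      (Perm.sign v : ℤ) * if a ∘ v = b then ((Fintype.card α).factorial : ℤ) else 0 := by
    rw [← h1, ← mul_assoc, hsq, one_mul]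
  rw [h2]
  split_ifs with hab
  · rw [sum_eq_single v.symm]
    · rw [if_pos fun i => by rw [← hab]; simp, Perm.sign_symm]
      ring
    · intro w _ hw
      rw [if_neg, mul_zero]
      intro h
      refine hw (Equiv.ext fun i => hbinj ?_)
      rw [← h i, ← hab]
      simp
    · simp
  · rw [mul_zero, sum_eq_zero fun w _ => by
      rw [if_neg, mul_zero]
      intro h
      apply hab
      have := eq_one_of_comp_anti hb.anti (w * v) fun i j hij => by
        have := hA.anti i j hij
        simp only [Function.comp_apply, h] at this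
        exact this
      funext i
      simp only [Function.comp_apply, h]
      exact congrArg b (Equiv.congr_fun this i), mul_zero]

/-- Dominated nonincreasing vectors have smaller square sums. -/
lemma sum_sq_le_of_pre_le {e r : Fin N → ℤ} (he : Antitone e) (he0 : ∀ i, 0 ≤ e i)
    (h : ∀ j, pre j e ≤ pre j r) : ∑ i, e i * e i ≤ ∑ i, r i * r i := by
  classical
  have key : 0 ≤ ∑ i, e i * (r i - e i) := by
    set M := (∑ i, e i).toNat
    have he1 : ∀ i, e i = ∑ t ∈ range M, if (t : ℤ) < e i then (1 : ℤ) else 0 := by
      intro i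
      have h1 : (range M).filter (fun t : ℕ => (t : ℤ) < e i) = range (e i).toNat := by
        ext t
        have := single_le_sum (fun i _ => he0 i) (mem_univ i)
        simp only [mem_filter, mem_range, M]
        omega
      rw [sum_boole, h1, card_range, Int.natCast_toNat_eq_self.mpr (he0 i)]
    rw [sum_congr rfl fun i (_ : i ∈ univ) => congrArg (· * (r i - e i)) (he1 i)]
    simp only [sum_mul]
    rw [sum_comm]
    refine sum_nonneg fun t _ => ?_
    set m := #{i : Fin N | (t : ℤ) < e i}
    have hm : ∀ i : Fin N, ((t : ℤ) < e i ↔ (i : ℕ) < m) := by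
      intro i
      constructor
      · intro hi
        have hsub : Finset.Iic i ⊆ univ.filter fun i : Fin N => (t : ℤ) < e i := fun x hx =>
          mem_filter.mpr ⟨mem_univ _, lt_of_lt_of_le hi (he (mem_Iic.mp hx))⟩
        have := card_le_card hsub
        rw [Fin.card_Iic] at this
        exact this
      · intro hi
        by_contra hc
        have hsub : (univ.filter fun i : Fin N => (t : ℤ) < e i) ⊆ Finset.Iio i := fun x hx => by
          rw [mem_filter] at hx
          rw [mem_Iio]
          by_contra hxi
          exact hc (lt_of_lt_of_le hx.2 (he (not_lt.mp hxi)))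
        have := card_le_card hsub
        rw [Fin.card_Iio] at this
        omega
    have h2 : ∑ i : Fin N, (if (t : ℤ) < e i then (1 : ℤ) else 0) * (r i - e i) =
        pre m r - pre m e := by
      simp only [pre, ← sum_sub_distrib]
      refine sum_congr rfl fun i _ => ?_
      by_cases hi : (i : ℕ) < m
      · rw [if_pos ((hm i).mpr hi), if_pos hi, if_pos hi, one_mul]
      · rw [if_neg (mt (hm i).mp hi), if_neg hi, if_neg hi, zero_mul, sub_zero]
    rw [h2]
    exact sub_nonneg.mpr (h m)
  have hsq : ∀ i, 2 * (e i * (r i - e i)) ≤ r i * r i - e i * e i := fun i => by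
    nlinarith [sq_nonneg (r i - e i)]
  have := sum_le_sum (s := univ) fun i _ => hsq i
  rw [← mul_sum, sum_sub_distrib] at this
  omega

/-- A nonzero Kostka number bounds the square sum of the content. -/
lemma sum_sq_le_of_kost (kap : l.Partition) (hN : l ≤ N) (e : Fin N → ℕ) (he : ∑ i, e i = l)
    (hne : kost N N (betaN N kap) e ≠ 0) :
    ∑ i, (e i : ℤ) * e i ≤ ∑ i : Fin N, (row kap i : ℤ) * row kap i := by
  set v := Tuple.sort fun i => -(e i : ℤ)
  have hne' : kost N N (betaN N kap) (e ∘ v) ≠ 0 := by rwa [kost_comp_perm _ e he v]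
  have h1 := (kost_ne_zero N _ _ (isBeta_betaN kap hN)
    ((Equiv.sum_comp v e).trans he) hne').2
  rw [← Equiv.sum_comp v fun i => (e i : ℤ) * e i]
  refine sum_sq_le_of_pre_le (e := fun i => ((e ∘ v) i : ℤ)) (fun i j hij => ?_)
    (fun i => by simp) fun j => ?_
  · have := Tuple.monotone_sort (fun i => -(e i : ℤ)) hij
    simp only [Function.comp_apply] at this ⊢
    exact neg_le_neg_iff.mp this
  · refine (h1 j).trans (le_of_eq ?_)
    exact sum_congr rfl fun i _ => by simp [betaN]

/-- The coefficient of `χ^lam × χ^kap` in `χ^c` is not zero. -/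
theorem skew_coeff_ne_zero (c : (k + l).Partition) (lam : k.Partition) (kap : l.Partition)
    (hsub : ∀ i, row lam i ≤ row c i)
    (hkap : ∃ σ : Perm (Fin (k + l)), ∀ i, row kap (σ i) = row c i - row lam i) :
    ∑ y : Perm (Fin k), ∑ z : Perm (Fin l),
      chiP c (youngHom k l (y, z)) * (chiP lam y * chiP kap z) ≠ 0 := by
  classical
  obtain ⟨σ, hσ⟩ := hkap
  set A := beta c
  set L := betaN (k + l) lam
  set K := betaN (k + l) kap
  have hA : IsBeta (k + l) A := isBeta_beta c
  have hL : IsBeta k L := isBeta_betaN lam (by omega)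
  have hK : IsBeta l K := isBeta_betaN kap (by omega)
  suffices h : ∑ y : Perm (Fin k), ∑ z : Perm (Fin l),
      chi A (Perm.sumCongr y z) * chi L y * chi K z ≠ 0 by
    have e : ∀ y z, chiP c (youngHom k l (y, z)) * (chiP lam y * chiP kap z) =
        ((chi A (Perm.sumCongr y z) * chi L y * chi K z : ℤ) : ℂ) := fun y z => by
      simp only [chiP, chiC, L, K, chi_betaN lam y _ (Nat.le_add_right k l),
        chi_betaN kap z _ (Nat.le_add_left l k), Int.cast_mul]
      rw [show youngHom k l (y, z) = finSumFinEquiv.permCongr (Perm.sumCongr y z) from rfl,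
        chi_permCongr]
      ring
    simp only [e, ← Int.cast_sum]
    exact_mod_cast h
  have hdiff : ∀ i, A i - L i = ((row c i - row lam i : ℕ) : ℤ) := fun i => by
    have := hsub i
    simp only [A, L, beta, betaN]; omega
  -- evaluate the double sum
  have heval : ∑ y : Perm (Fin k), ∑ z : Perm (Fin l), chi A (Perm.sumCongr y z) * chi L y * chi K z
      = (k.factorial : ℤ) * ∑ w : Perm (Fin (k + l)), (Perm.sign w : ℤ) *
        ∑ g : Fin l → Fin (k + l), if ∀ i, A i - cnt g i = L (w i) then
          ∑ z ∈ stab g, chi K z else 0 := by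
    rw [sum_comm]
    have h1 : ∀ z : Perm (Fin l), ∑ y : Perm (Fin k), chi A (Perm.sumCongr y z) * chi L y * chi K z
        = ∑ g ∈ fixedCol (k + l) z, ((k.factorial : ℤ) * ∑ w : Perm (Fin (k + l)),
          (Perm.sign w : ℤ) * if ∀ i, A i - cnt g i = L (w i) then 1 else 0) * chi K z := by
      intro z
      simp only [chi_sumCongr, sum_mul]
      rw [sum_comm]
      refine sum_congr rfl fun g _ => ?_
      rw [← sum_mul]
      have h2 := sum_chi_mul_beta (α := Fin k) (a := fun i => A i - cnt g i) (b := L)
        (by rwa [Fintype.card_fin]) (by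
          rw [sum_sub_distrib, hA.total, ← Nat.cast_sum, sum_cnt, Fintype.card_fin,
            Fintype.card_fin]
          push_cast; ring)
      rw [h2, Fintype.card_fin]
    rw [sum_congr rfl fun z _ => h1 z]
    simp only [fixedCol, sum_filter, stab]
    simp only [mul_sum, sum_mul]
    rw [sum_comm]
    conv_rhs => rw [sum_comm]
    refine sum_congr rfl fun g _ => ?_
    simp only [← sum_filter]
    rw [sum_comm]
    refine sum_congr rfl fun w _ => ?_
    split_ifs with hg
    · rw [mul_sum, mul_sum]
      refine sum_congr rfl fun z _ => ?_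
      ring
    · simp
  rw [heval]
  refine mul_ne_zero (by positivity) ?_
  simp only [sum_stab_chi]
  have hdsum : ∑ i : Fin (k + l), (row c i - row lam i) = l := by
    rw [← sum_congr rfl fun i _ => hσ i, Equiv.sum_comp σ fun i : Fin (k + l) => row kap i,
      Fin.sum_univ_eq_sum_range (fun i => row kap i), sum_range_row_of_le kap (by omega)]
  rw [sum_eq_single 1]
  · -- the main term is `l!`
    simp only [Perm.sign_one, Units.val_one, one_mul, Perm.one_apply]
    set d : Fin (k + l) → ℕ := fun i => row c i - row lam i
    have hiff : ∀ g : Fin l → Fin (k + l), (∀ i, A i - cnt g i = L i) ↔ cnt g = d := by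
      intro g
      constructor
      · intro h; funext i; have := h i; have := hdiff i; simp only [d]; omega
      · intro h i; have := hdiff i; have := congrFun h i; simp only [d] at this; omega
    simp only [hiff]
    rw [← sum_filter, sum_congr rfl fun g hg => by rw [(mem_filter.mp hg).2], sum_const,
      nsmul_eq_mul]
    have hk : kost (k + l) (k + l) K d = 1 := by
      have h1 : d = (fun i : Fin (k + l) => row kap i) ∘ σ := funext fun i => (hσ i).symm
      rw [h1, kost_comp_perm _ _ (by
        rw [Fin.sum_univ_eq_sum_range (fun i => row kap i), sum_range_row_of_le kap (by omega)]) σ]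
      exact kost_diag _ le_rfl _ _ hK (fun i hi => absurd i.isLt (not_lt.mpr hi))
        (fun i => by simp [K, betaN])
    rw [hk, mul_one, ← Nat.cast_prod, ← Nat.cast_mul,
      card_cnt_mul_prod d (hdsum.trans (Fintype.card_fin l).symm)]
    exact_mod_cast Nat.factorial_ne_zero _
  · intro w _ hw
    rw [sum_eq_zero fun g _ => ?_, mul_zero]
    split_ifs with hg
    swap
    · rfl
    suffices hk : kost (k + l) (k + l) K (cnt g) = 0 by rw [hk, mul_zero]
    by_contra hk
    have h1 := sum_sq_le_of_kost kap (by omega) (cnt g) ((sum_cnt g).trans (Fintype.card_fin l)) hk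
    rw [← Equiv.sum_comp σ fun i : Fin (k + l) => (row kap i : ℤ) * row kap i] at h1
    have e1 : ∀ i, (cnt g i : ℤ) = A i - L (w i) := fun i => by have := hg i; omega
    have e2 : ∀ i, (row kap (σ i) : ℤ) = A i - L i := fun i => by rw [hdiff, hσ]
    simp only [e1, e2] at h1
    have hmono : Monovary A L := fun i j hij => by
      rcases lt_trichotomy i j with h | h | h
      · exact absurd (hL.anti _ _ h) (not_lt.mpr hij.le)
      · rw [h]
      · exact (hA.anti _ _ h).le
    have hlt : ∑ i, A i * L (w i) < ∑ i, A i * L i := by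
      refine hmono.sum_mul_comp_perm_lt_sum_mul_iff.mpr fun hm => hw ?_
      refine eq_one_of_comp_anti hL.anti w fun i j hij => ?_
      rcases lt_trichotomy (L (w j)) (L (w i)) with h | h | h
      · exact h
      · have hinj : Function.Injective L := fun x y hxy => by
          rcases lt_trichotomy x y with h' | h' | h'
          · exact absurd hxy (ne_of_gt (hL.anti _ _ h'))
          · exact h'
          · exact absurd hxy (ne_of_lt (hL.anti _ _ h'))
        exact absurd (w.injective (hinj h)) hij.ne'
      · exact absurd (hA.anti _ _ hij) (not_lt.mpr (hm h))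
    have e3 : ∀ x : Fin (k + l) → ℤ, ∑ i, (A i - x i) * (A i - x i) =
        ∑ i, A i * A i - 2 * ∑ i, A i * x i + ∑ i, x i * x i := fun x => by
      rw [mul_sum, ← sum_sub_distrib, ← sum_add_distrib]
      exact sum_congr rfl fun i _ => by ring
    rw [e3 fun i => L (w i), e3, Equiv.sum_comp w fun i => L i * L i] at h1
    omega
  · simp

end Vale.Agent.P197.Covering
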