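import Vale.Agent.P197.Covering.Rep
import Vale.Agent.P197.Covering.Rule
import Vale.Agent.P197.Covering.Leaf

/-!
# Shapes, residual shapes and the covering step
-/

open Finset Equiv

namespace Vale.Agent.P197.Covering

open SymChar

variable {n k l : ℕ}

lemma colLen_eq_countP (p : n.Partition) (t : ℕ) :
    colLen p t = p.parts.countP (t < ·) := by
  set L := p.parts.sort (· ≥ ·) with hL
  have hlen : L.length ≤ n := length_sort_le p
  have h2 : colLen p t = #((range L.length).filter fun i => t < L.getD i 0) := by
    rw [colLen]
    congr 1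
    ext i
    simp only [mem_filter, mem_range]
    constructor
    · rintro ⟨_, h⟩
      refine ⟨?_, h⟩
      by_contra hc
      rw [row, ← hL, List.getD_eq_default _ _ (not_lt.mp hc)] at h
      omega
    · rintro ⟨h, h'⟩
      exact ⟨by omega, h'⟩
  rw [h2]
  conv_rhs => rw [← Multiset.sort_eq p.parts (· ≥ ·), ← hL]
  rw [Multiset.coe_countP]
  conv_rhs => rw [show L = (List.range L.length).map (fun i => L.getD i 0) from
    List.ext_getElem (by simp) (fun i h1 h2 => by
      rw [List.getElem_map, List.getElem_range, List.getD_eq_getElem _ _ h1])]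
  rw [List.countP_map, List.countP_eq_length_filter, ← List.toFinset_card_of_nodup
    (List.nodup_range.filter _)]
  congr 1
  ext i
  simp

/-- Values on an initial segment form a partition. -/
lemma exists_partition_of_values {N : ℕ} (f : ℕ → ℕ) (hf : ∑ i ∈ range N, f i = l) :
    ∃ p : l.Partition, ∀ t, colLen p t = #((range N).filter fun i => t < f i) := by
  refine ⟨Nat.Partition.ofSums l ((Multiset.range N).map f) hf, fun t => ?_⟩
  rw [colLen_eq_countP]
  show Multiset.countP _ (((Multiset.range N).map f).filter (· ≠ 0)) = _
  rw [Multiset.countP_filter, Multiset.countP_map, Finset.card_def, Finset.filter_val,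
    Finset.range_val]
  congr 1
  exact Multiset.filter_congr fun i _ => ⟨fun h => h.1, fun h => ⟨h, by omega⟩⟩

/-- An antitone sequence is the row sequence of a partition. -/
lemma exists_partition_of_antitone (f : ℕ → ℕ) (hf : Antitone f)
    (hsum : ∑ i ∈ range n, f i = n) (h0 : f n = 0) :
    ∃ p : n.Partition, ∀ i, row p i = f i := by
  obtain ⟨p, hp⟩ := exists_partition_of_values f hsum
  have key : ∀ i t, t < row p i ↔ t < f i := by
    intro i t
    rw [← lt_colLen_iff, hp]
    constructor
    · intro h
      by_contra hc
      have hsub : (range n).filter (fun j => t < f j) ⊆ range i := fun j hj => by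
        simp only [mem_filter, mem_range] at hj ⊢
        by_contra hji
        have := hf (not_lt.mp hji)
        omega
      have := card_le_card hsub
      rw [card_range] at this
      omega
    · intro h
      have hi : i < n := by
        by_contra hc
        have := hf (not_lt.mp hc)
        omega
      have hsub : range (i + 1) ⊆ (range n).filter (fun j => t < f j) := fun j hj => by
        simp only [mem_filter, mem_range] at hj ⊢
        have := hf (show j ≤ i by omega)
        omega
      have := card_le_card hsub
      rw [card_range] at this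
      omega
  refine ⟨p, fun i => ?_⟩
  refine le_antisymm ?_ ?_ <;> by_contra hh
  · exact lt_irrefl _ ((key i _).mp (not_le.mp hh))
  · exact lt_irrefl _ ((key i _).mpr (not_le.mp hh))

/-- The residual shape: the sorted row lengths of `c / lam`. -/
lemma exists_resid (c : (k + l).Partition) (lam : k.Partition) (hsub : ∀ i, row lam i ≤ row c i) :
    ∃ kap : l.Partition,
      (∃ σ : Perm (Fin (k + l)), ∀ i, row kap (σ i) = row c i - row lam i) ∧
      ∀ t, colLen kap t = #((range (k + l)).filter fun i => t < row c i - row lam i) := by
  classical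
  have hsum : ∑ i ∈ range (k + l), (row c i - row lam i) = l := by
    have h1 : ∑ i ∈ range (k + l), (row c i - row lam i) + ∑ i ∈ range (k + l), row lam i =
        ∑ i ∈ range (k + l), row c i := by
      rw [← sum_add_distrib]
      exact sum_congr rfl fun i _ => Nat.sub_add_cancel (hsub i)
    rw [sum_range_row c, sum_range_row_of_le lam (Nat.le_add_right k l)] at h1
    omega
  obtain ⟨kap, hkap⟩ := exists_partition_of_values _ hsum
  refine ⟨kap, ?_, hkap⟩
  -- equal threshold counts, hence equal fibres
  let u : Fin (k + l) → Fin (k + l + 1) := fun i =>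
    ⟨row kap i, Nat.lt_succ_of_le ((row_le_size kap i).trans (Nat.le_add_left l k))⟩
  let v : Fin (k + l) → Fin (k + l + 1) := fun i =>
    ⟨row c i - row lam i, Nat.lt_succ_of_le ((Nat.sub_le _ _).trans (row_le_size c i))⟩
  have hth : ∀ t, #{i : Fin (k + l) | t < row kap i} =
      #{i : Fin (k + l) | t < row c i - row lam i} := by
    intro t
    rw [card_filter, card_filter, Fin.sum_univ_eq_sum_range (fun i => if t < row kap i then 1 else 0),
      Fin.sum_univ_eq_sum_range (fun i => if t < row c i - row lam i then 1 else 0),
      ← card_filter, ← card_filter, ← hkap]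
    refine (congrArg card ?_)
    ext i
    simp only [mem_filter, mem_range, and_congr_left_iff]
    intro h
    refine ⟨fun _ => ?_, fun hi => by omega⟩
    by_contra hc
    rw [row_eq_zero_of_le kap (not_lt.mp hc)] at h
    omega
  have hcnt : cnt u = cnt v := by
    funext j
    have split : ∀ (w : Fin (k + l) → ℕ), #{i | w i = (j : ℕ)} + #{i | (j : ℕ) < w i} =
        if (j : ℕ) = 0 then k + l else #{i | (j : ℕ) - 1 < w i} := by
      intro w
      rw [← card_union_of_disjoint (disjoint_filter.mpr fun i _ => by omega)]
      split_ifs with h0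
      · refine (congrArg card ?_).trans ((card_univ).trans (Fintype.card_fin _))
        ext i; simp; omega
      · congr 1
        ext i; simp; omega
    have h1 := split fun i => row kap i
    have h2 := split fun i => row c i - row lam i
    have h3 := hth j
    have h4 := hth ((j : ℕ) - 1)
    simp only [cnt, u, v, Fin.ext_iff]
    split_ifs at h1 h2 <;> omega
  obtain ⟨σ, hσ⟩ := exists_perm_of_cnt_eq hcnt
  exact ⟨σ, fun i => congrArg Fin.val (congrFun hσ i)⟩

lemma row_zero_le_of_colLen (p : n.Partition) {M : ℕ} (h : colLen p M = 0) : row p 0 ≤ M := by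
  by_contra hc
  have := (lt_colLen_iff p 0 M).mpr (not_le.mp hc)
  omega

lemma row_conjP_zero (c : n.Partition) : row (conjP c) 0 = colLen c 0 := row_conjP c 0

lemma colLen_conjP (c : n.Partition) (t : ℕ) : colLen (conjP c) t = row c t := by
  rw [← row_conjP, conjP_conjP]

/-- A covering step. -/
theorem Good.step {P : Piece} {ps : List Piece} {c : (P.size + total ps).Partition}
    {lam : P.size.Partition} (h1 : GoodC P.cls P.perms (chiP lam))
    (hsub : ∀ i, row lam i ≤ row c i)
    (h2 : ∀ kap : (total ps).Partition,
      (∀ t, colLen kap t =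
        #((range (P.size + total ps)).filter fun i => t < row c i - row lam i)) → Good ps kap) :
    Good (P :: ps) c := by
  obtain ⟨kap, hσ, hk⟩ := exists_resid c lam hsub
  exact Good.cons h1 (h2 kap hk) (skew_coeff_ne_zero c lam kap hsub hσ)

lemma Good.of_conjP {ps : List Piece} {c : (total ps).Partition} (h : Good ps (SymChar.conjP c)) :
    Good ps c := by
  have := h.conjP
  rwa [conjP_conjP] at this

/-! ### Bounds on rows -/

lemma sum_range_row_le (c : n.Partition) (m : ℕ) : ∑ i ∈ range m, row c i ≤ n := by
  rcases le_total m n with h | h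
  · exact (sum_le_sum_of_subset (range_subset_range.mpr h)).trans_eq (sum_range_row c)
  · exact (sum_range_row_of_le c h).le

lemma colLen_le_size (c : n.Partition) (t : ℕ) : colLen c t ≤ n :=
  (card_le_card (filter_subset _ _)).trans_eq (card_range n)

lemma sum_range_colLen_zero (c : n.Partition) {m : ℕ} (h : colLen c 0 ≤ m) :
    ∑ i ∈ range m, row c i = n := by
  have h0 : ∀ i, colLen c 0 ≤ i → row c i = 0 := fun i hi => by
    by_contra hc
    have := (lt_colLen_iff c i 0).mpr (Nat.pos_of_ne_zero hc)
    omega
  have e : ∀ M, colLen c 0 ≤ M → ∑ i ∈ range (colLen c 0), row c i = ∑ i ∈ range M, row c i :=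
    fun M hM => sum_subset (range_subset_range.mpr hM) fun i _ hi =>
      h0 i (not_lt.mp (mt mem_range.mpr hi))
  rw [← e m h, e n (colLen_le_size c 0), sum_range_row]

lemma row_zero_add_one_le (c : n.Partition) : row c 0 + row c 1 ≤ n := by
  simpa [sum_range_succ] using sum_range_row_le c 2

lemma row_012_le (c : n.Partition) : row c 0 + row c 1 + row c 2 ≤ n := by
  simpa [sum_range_succ] using sum_range_row_le c 3

/-- Every row among the first `colLen c 0` has a box. -/
lemma sum_range_add_colLen_le (c : n.Partition) (m : ℕ) :
    ∑ i ∈ range m, row c i + colLen c 0 ≤ n + m := by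
  rcases le_total (colLen c 0) m with h | h
  · rw [sum_range_colLen_zero c h]; omega
  · have h1 : ∑ i ∈ range m, row c i + ∑ i ∈ Finset.Ico m (colLen c 0), row c i = n := by
      rw [sum_range_add_sum_Ico _ h, sum_range_colLen_zero c le_rfl]
    have h2 : #(Finset.Ico m (colLen c 0)) ≤ ∑ i ∈ Finset.Ico m (colLen c 0), row c i := by
      rw [card_eq_sum_ones]
      exact sum_le_sum fun i hi => (lt_colLen_iff c i 0).mp (Finset.mem_Ico.mp hi).2
    rw [Nat.card_Ico] at h2
    omega

lemma sum_range_le_add (c : n.Partition) {a b : ℕ} (h : a ≤ b) :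
    ∑ i ∈ range b, row c i ≤ ∑ i ∈ range a, row c i + (b - a) * row c a := by
  rw [← sum_range_add_sum_Ico _ h, ← Nat.card_Ico, ← smul_eq_mul, ← sum_const]
  gcongr with i hi
  exact row_antitone c (Finset.mem_Ico.mp hi).1

/-- Two-level bound on the size. -/
lemma size_le (c : n.Partition) {a m : ℕ} (ha : a ≤ m) :
    n ≤ ∑ i ∈ range a, row c i + (m - a) * row c a + (colLen c 0 - m) * row c m := by
  have h1 := sum_range_colLen_zero c (le_max_left (colLen c 0) m)
  have h2 := sum_range_le_add c ha
  have h3 := sum_range_le_add c (le_max_right (colLen c 0) m)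
  have h4 : max (colLen c 0) m - m = colLen c 0 - m := by omega
  rw [h4] at h3
  omega

lemma row_colLen_le (c : n.Partition) (t : ℕ) : row c (colLen c t) ≤ t := by
  by_contra hc
  exact lt_irrefl _ ((lt_colLen_iff c _ t).mpr (not_le.mp hc))

lemma size_le_row_mul (c : n.Partition) : n ≤ row c 0 * colLen c 0 := by
  have := size_le c (a := 0) (Nat.zero_le (colLen c 0))
  simp at this
  rwa [mul_comm] at this

end Vale.Agent.P197.Covering
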