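import Vale.Agent.P197.SymChar.Dominance

/-!
# Leaves of the covering recursion and elementary bounds on Young diagrams

A leaf `l` is removed from the diagram with row lengths `f`; the residual shape is the multiset of
the numbers `f i - l i`, of largest entry `resMax` and with `resLen` nonzero entries.
-/

open Finset

namespace Vale.Agent.P197.Covering

open SymChar

/-- The longest row of the residual of `f` after removing `l`. -/
def resMax (n : ℕ) (f l : ℕ → ℕ) : ℕ := (range n).sup fun i => f i - l i

/-- The number of nonempty rows of the residual of `f` after removing `l`. -/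
def resLen (n : ℕ) (f l : ℕ → ℕ) : ℕ := #((range n).filter fun i => l i < f i)

/-- Longest row and length of the two exceptional hooks `(8,1^6)` and `(7,1^7)`. -/
def IsExc (a b : ℕ) : Prop := (a = 8 ∧ b = 7) ∨ (a = 7 ∧ b = 8)

instance (a b : ℕ) : Decidable (IsExc a b) := inferInstanceAs (Decidable (_ ∨ _))

/-- The one-row shape `(q)`. -/
def rowLeaf (q : ℕ) : ℕ → ℕ := fun i => if i = 0 then q else 0

/-- The one-column shape `(1^q)`. -/
def colLeaf (q : ℕ) : ℕ → ℕ := fun i => if i < q then 1 else 0

/-- The shape `(a,b,c)`. -/
def tri (a b c : ℕ) : ℕ → ℕ := fun i =>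
  if i = 0 then a else if i = 1 then b else if i = 2 then c else 0

/-- The conjugate of the shape `(a,b,c)`. -/
def triCol (a b c : ℕ) : ℕ → ℕ := fun i =>
  (if i < a then 1 else 0) + (if i < b then 1 else 0) + (if i < c then 1 else 0)

/-- The shapes usable for a gadget with three classes of `p` points. -/
def IsGadgetLeaf (p : ℕ) (l : ℕ → ℕ) : Prop :=
  ∃ a b c, c < b ∧ b < a ∧ a + b + c = 3 * p ∧ b ≤ p ∧ (l = tri a b c ∨ l = triCol a b c)

variable {n : ℕ} (c : n.Partition)

lemma pos_colLen_iff (i : ℕ) : i < colLen c 0 ↔ 0 < row c i := lt_colLen_iff c i 0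

lemma colLen_le (x : ℕ) : colLen c x ≤ n :=
  (card_le_card (filter_subset _ _)).trans_eq (card_range n)

lemma colLen_zero_conjP : colLen (conjP c) 0 = row c 0 := by
  refine le_antisymm ?_ ?_ <;> by_contra hh <;> push Not at hh
  · have := (pos_colLen_iff (conjP c) _).mp hh
    rw [row_conjP, lt_colLen_iff] at this
    exact lt_irrefl _ this
  · have h : colLen (conjP c) 0 < colLen (conjP c) 0 := by
      rw [pos_colLen_iff, row_conjP, lt_colLen_iff]
      exact hh
    exact lt_irrefl _ h

lemma sum_indicator {k : ℕ} (hk : k ≤ n) (v : ℕ) :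
    (∑ i ∈ range n, if i < k then v else 0) = k * v := by
  have : (range n).filter (fun i => i < k) = range k := by ext; simp; omega
  rw [← sum_filter, this, sum_const, card_range, smul_eq_mul]

lemma size_le_mul : n ≤ colLen c 0 * row c 0 := by
  rw [← sum_indicator (colLen_le c 0) (row c 0)]
  refine (sum_range_row c).symm.le.trans (sum_le_sum fun i _ => ?_)
  split_ifs with h
  · exact row_antitone c (Nat.zero_le i)
  · rw [pos_colLen_iff] at h; omega

lemma row_zero_add_colLen (hn : 1 ≤ n) : row c 0 + colLen c 0 ≤ n + 1 := by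
  have h : ∀ i ∈ range n, (if i < 1 then row c 0 else 0) + (if i < colLen c 0 then 1 else 0)
      ≤ row c i + if i < 1 then 1 else 0 := by
    intro i _
    have h1 := pos_colLen_iff c i
    by_cases hi : i < 1
    · obtain rfl : i = 0 := by omega
      split_ifs <;> omega
    · rw [if_neg hi, if_neg hi]
      split_ifs with h2
      · rw [h1] at h2; omega
      · omega
  have := sum_le_sum h
  rw [sum_add_distrib, sum_add_distrib, sum_indicator hn, sum_indicator hn,
    sum_indicator (colLen_le c 0), sum_range_row] at this
  omega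

lemma row_zero_add_row_one_add_colLen (h2 : 2 ≤ colLen c 0) :
    row c 0 + row c 1 + colLen c 0 ≤ n + 2 := by
  have hn : 2 ≤ n := h2.trans (colLen_le c 0)
  have h : ∀ i ∈ range n, (if i < 1 then row c 0 else 0) + (if i < 2 then row c 1 else 0)
      + (if i < colLen c 0 then 1 else 0)
      ≤ row c i + (if i < 1 then row c 1 else 0) + if i < 2 then 1 else 0 := by
    intro i _
    have h1 := pos_colLen_iff c i
    rcases i with _ | _ | i
    · simp only [zero_lt_one, zero_lt_two, if_true]; split_ifs <;> omega
    · simp only [Nat.zero_add, lt_irrefl, Nat.one_lt_two, if_true, if_false] at *; split_ifs <;> omega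
    · simp only [show ¬ i + 1 + 1 < 1 by omega, show ¬ i + 1 + 1 < 2 by omega, if_false]
      split_ifs with h3
      · rw [h1] at h3; omega
      · omega
  have := sum_le_sum h
  rw [sum_add_distrib, sum_add_distrib, sum_add_distrib, sum_add_distrib,
    sum_indicator (show 1 ≤ n by omega), sum_indicator (show 1 ≤ n by omega), sum_indicator hn,
    sum_indicator hn, sum_indicator (colLen_le c 0), sum_range_row] at this
  omega

lemma two_mul_row_one_le : 2 * row c 1 ≤ n := by
  rcases lt_or_ge (colLen c 0) 2 with h | h
  · have : ¬ 1 < colLen c 0 := by omega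
    rw [pos_colLen_iff] at this
    omega
  · have := row_zero_add_row_one_add_colLen c h
    have := row_antitone c (show 0 ≤ 1 by omega)
    omega

/-- Three row lengths and the column length bound the size. -/
lemma size_le_rows (hn : 2 ≤ n) :
    n + 2 * row c 2 ≤ row c 0 + row c 1 + colLen c 0 * row c 2 := by
  have h : ∀ i ∈ range n, row c i + (if i < 2 then row c 2 else 0) + (if i < 1 then row c 1 else 0)
      ≤ (if i < 1 then row c 0 else 0) + (if i < 2 then row c 1 else 0)
        + if i < colLen c 0 then row c 2 else 0 := by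
    intro i _
    have h1 := pos_colLen_iff c i
    have h02 := row_antitone c (show 0 ≤ 2 by omega)
    have h12 := row_antitone c (show 1 ≤ 2 by omega)
    rcases i with _ | _ | i
    · simp only [zero_lt_one, zero_lt_two, if_true]
      by_cases h : 0 < colLen c 0
      · rw [if_pos h]; omega
      · rw [if_neg h]; omega
    · simp only [Nat.zero_add, lt_irrefl, Nat.one_lt_two, if_true, if_false] at *
      by_cases h : 1 < colLen c 0
      · rw [if_pos h]; omega
      · rw [if_neg h]; omega
    · simp only [show ¬ i + 1 + 1 < 1 by omega, show ¬ i + 1 + 1 < 2 by omega, if_false]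
      by_cases h : i + 1 + 1 < colLen c 0
      · rw [if_pos h]
        have := row_antitone c (show 2 ≤ i + 1 + 1 by omega)
        omega
      · rw [if_neg h]; omega
  have := sum_le_sum h
  rw [sum_add_distrib, sum_add_distrib, sum_add_distrib, sum_add_distrib,
    sum_indicator (show 1 ≤ n by omega), sum_indicator (show 1 ≤ n by omega), sum_indicator hn,
    sum_indicator hn, sum_indicator (colLen_le c 0), sum_range_row] at this
  omega

/-- Three row lengths and three column lengths bound the size. -/
lemma size_le_rows_cols (h2 : 2 ≤ row c 2) :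
    n + 2 * row c 2 ≤
      row c 0 + row c 1 + colLen c 0 + colLen c 1 + colLen c 2 * (row c 2 - 2) := by
  have hL : 2 < colLen c 0 := by rw [pos_colLen_iff]; omega
  have hn : 2 ≤ n := by have := colLen_le c 0; omega
  have hq : 2 < colLen c 1 := by rw [lt_colLen_iff]; omega
  have hC : 2 < row c 2 → 2 < colLen c 2 := fun h => (lt_colLen_iff c 2 2).mpr h
  have h : ∀ i ∈ range n, row c i + (if i < 2 then row c 2 else 0) + (if i < 1 then row c 1 else 0)
      ≤ (if i < 1 then row c 0 else 0) + (if i < 2 then row c 1 else 0)
        + (if i < colLen c 0 then 1 else 0) + (if i < colLen c 1 then 1 else 0)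
        + if i < colLen c 2 then row c 2 - 2 else 0 := by
    intro i _
    have a0 := pos_colLen_iff c i
    have a1 := lt_colLen_iff c i 1
    have a2 := lt_colLen_iff c i 2
    rcases i with _ | _ | i
    · simp only [zero_lt_one, zero_lt_two, if_true]
      rw [if_pos (by omega : 0 < colLen c 0), if_pos (by omega : 0 < colLen c 1)]
      by_cases h : 0 < colLen c 2
      · rw [if_pos h]; omega
      · rw [if_neg h]; omega
    · simp only [Nat.zero_add, lt_irrefl, Nat.one_lt_two, if_true, if_false] at *
      rw [if_pos (by omega : 1 < colLen c 0), if_pos (by omega : 1 < colLen c 1)]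
      by_cases h : 1 < colLen c 2
      · rw [if_pos h]; omega
      · rw [if_neg h]; omega
    · simp only [show ¬ i + 1 + 1 < 1 by omega, show ¬ i + 1 + 1 < 2 by omega, if_false]
      have := row_antitone c (show 2 ≤ i + 1 + 1 by omega)
      split_ifs <;> omega
  have := sum_le_sum h
  rw [sum_add_distrib, sum_add_distrib, sum_add_distrib, sum_add_distrib, sum_add_distrib,
    sum_add_distrib, sum_indicator (show 1 ≤ n by omega), sum_indicator (show 1 ≤ n by omega),
    sum_indicator hn, sum_indicator hn, sum_indicator (colLen_le c 0),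
    sum_indicator (colLen_le c 1), sum_indicator (colLen_le c 2), sum_range_row] at this
  omega

lemma resMax_le {l : ℕ → ℕ} {B : ℕ} (h0 : row c 0 ≤ l 0 + B) (h1 : row c 1 ≤ B) :
    resMax n (row c) l ≤ B := by
  refine Finset.sup_le fun i _ => ?_
  rcases i with _ | i
  · omega
  · have := row_antitone c (show 1 ≤ i + 1 by omega)
    omega

lemma resLen_le (l : ℕ → ℕ) : resLen n (row c) l ≤ colLen c 0 :=
  card_le_card fun i hi => by
    simp only [mem_filter] at hi ⊢
    exact ⟨hi.1, by omega⟩

lemma resLen_lt {l : ℕ → ℕ} {i : ℕ} (hi : i < colLen c 0) (h : row c i ≤ l i) :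
    resLen n (row c) l < colLen c 0 := by
  refine card_lt_card ⟨fun j hj => ?_, fun hsub => ?_⟩
  · simp only [mem_filter] at hj ⊢
    exact ⟨hj.1, by omega⟩
  · have hin : i < n := lt_of_lt_of_le hi (colLen_le c 0)
    have := hsub (mem_filter.mpr ⟨mem_range.mpr hin, (pos_colLen_iff c i).mp hi⟩)
    simp only [mem_filter] at this
    omega

lemma tri_le {a b d : ℕ} (h0 : a ≤ row c 0) (h1 : b ≤ row c 1) (h2 : d ≤ row c 2) (i : ℕ) :
    tri a b d i ≤ row c i := by
  simp only [tri]
  split_ifs with e e' e'' <;> subst_vars <;> omega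

lemma rowLeaf_le {q : ℕ} (h : q ≤ row c 0) (i : ℕ) : rowLeaf q i ≤ row c i := by
  simp only [rowLeaf]
  split_ifs with e <;> subst_vars <;> omega

lemma colLeaf_le {q : ℕ} (h : q ≤ colLen c 0) (i : ℕ) : colLeaf q i ≤ row c i := by
  simp only [colLeaf]
  split_ifs with e
  · exact (pos_colLen_iff c i).mp (by omega)
  · omega

end Vale.Agent.P197.Covering
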