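import Vale.Agent.P197.Covering.Resid

/-!
# Covering: the step for a single class
-/

open Finset Equiv

namespace Vale.Agent.P197.Covering

open SymChar

/-- The admissible lists of top pieces: entries in `[2 K - 1, 2 K + 1]`, the last at most `2 K`. -/
def TopOK (K : ℕ) : List ℕ → Prop
  | [] => True
  | q :: r => 2 * K ≤ q + 1 ∧ q ≤ 2 * K + 1 ∧ (q ≤ 2 * K ∨ r ≠ []) ∧ TopOK K r

/-- The shapes not covered at `top = []`, `K = 2`: the hooks `(8, 1⁶)` and `(7, 1⁷)`. -/
def Exc (top : List ℕ) (K : ℕ) {n : ℕ} (c : n.Partition) : Prop :=
  top = [] ∧ K = 2 ∧ row c 1 ≤ 1 ∧ (row c 0 = 8 ∨ row c 0 = 7)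

/-- All shapes within the margins are good. -/
def Cov (top : List ℕ) (K : ℕ) : Prop :=
  ∀ c : (total (pieces top K)).Partition, row c 0 + K ≤ total (pieces top K) →
    colLen c 0 + K ≤ total (pieces top K) → ¬ Exc top K c → Good (pieces top K) c

lemma total_tail : ∀ K, total (tail K) + K = 4 * K * K
  | 0 => rfl
  | 1 => rfl
  | K + 2 => by
    have h := total_tail (K + 1)
    simp only [tail, total, Piece.size]
    nlinarith

lemma total_pieces (top : List ℕ) (K : ℕ) :
    total (pieces top K) + K = top.sum + 4 * K * K := by
  induction top with
  | nil => simpa [pieces] using total_tail K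
  | cons q r ih =>
    simp only [pieces, List.map_cons, List.cons_append, total, Piece.size, List.sum_cons] at ih ⊢
    omega

lemma exists_oneRow (q : ℕ) : ∃ p : q.Partition, ∀ i, row p i = if i = 0 then q else 0 := by
  refine exists_partition_of_antitone _ (fun i j hij => ?_) ?_ ?_
  · split_ifs <;> omega
  · rcases Nat.eq_zero_or_pos q with h | h
    · subst h; rfl
    · rw [sum_eq_single 0] <;> simp +contextual [h.ne']
  · split_ifs with h
    · exact h
    · rfl

/-- A single class, stripped from the first row. -/
lemma good_single_row {q : ℕ} {ps : List Piece} (c : (q + total ps).Partition)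
    (hq : q ≤ row c 0)
    (h : ∀ kap : (total ps).Partition, (∀ t, colLen kap t =
      #((range (q + total ps)).filter fun i => t < row c i - (if i = 0 then q else 0))) →
      Good ps kap) :
    Good (Piece.single q :: ps) c := by
  obtain ⟨lam, hlam⟩ := exists_oneRow q
  refine Good.step (lam := lam)
    (goodC_oneRow lam (fun i hi => by rw [hlam, if_neg (by omega)]) _) (fun i => ?_) fun kap hk => ?_
  · refine (hlam i).trans_le ?_
    split_ifs with h0
    · subst h0; exact hq
    · exact Nat.zero_le _
  · refine h kap fun t => (hk t).trans (congrArg card (filter_congr fun i _ => ?_))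
    exact Iff.of_eq (congrArg (fun x => t < row c i - x) (hlam i))

/-- A single class, stripped from the first column. -/
lemma good_single_col {q : ℕ} {ps : List Piece} (c : (q + total ps).Partition)
    (hq : q ≤ colLen c 0)
    (h : ∀ kap : (total ps).Partition, (∀ t, colLen kap t =
      #((range (q + total ps)).filter fun i => t < row c i - (if i < q then 1 else 0))) →
      Good ps kap) :
    Good (Piece.single q :: ps) c := by
  obtain ⟨lam, hlam⟩ := exists_oneRow q
  have hrow : ∀ i, row (conjP lam) i = if i < q then 1 else 0 := by
    intro i
    rw [row_conjP]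
    have key : ∀ j, j < colLen lam i ↔ (j = 0 ∧ i < q) := fun j => by
      rw [lt_colLen_iff, hlam]; split_ifs <;> omega
    split_ifs with hi
    · have := (key 0).mpr ⟨rfl, hi⟩
      have := mt (key 1).mp (by omega)
      omega
    · by_contra hc
      exact hi ((key 0).mp (Nat.pos_of_ne_zero hc)).2
  refine Good.step (lam := conjP lam)
    (goodC_conjP (goodC_oneRow lam (fun i hi => by rw [hlam, if_neg (by omega)]) _) (fun g hg => absurd hg List.not_mem_nil))
    (fun i => ?_) fun kap hk => ?_
  · refine (hrow i).trans_le ?_
    split_ifs with h0
    · exact (lt_colLen_iff c i 0).mp (lt_of_lt_of_le h0 hq)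
    · exact Nat.zero_le _
  · refine h kap fun t => (hk t).trans (congrArg card (filter_congr fun i _ => ?_))
    exact Iff.of_eq (congrArg (fun x => t < row c i - x) (hrow i))

lemma cov_single_aux {q : ℕ} {r : List ℕ} {K : ℕ} (hK : 1 ≤ K)
    (h2q : 2 * K ≤ q + 1) (hq : q ≤ 2 * K + 1) (hlast : q ≤ 2 * K ∨ r ≠ [])
    (hr : TopOK K r) (ih : Cov r K) (c : (q + total (pieces r K)).Partition)
    (hc0 : row c 0 + K ≤ q + total (pieces r K)) (hlc : colLen c 0 ≤ row c 0) :
    Good (Piece.single q :: pieces r K) c := by
  have hT := total_pieces r K
  have hmul := size_le_row_mul c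
  have hsq : q + (total (pieces r K)) ≤ row c 0 * row c 0 := hmul.trans (Nat.mul_le_mul_left _ hlc)
  have hqc : q ≤ row c 0 := by
    by_contra hc
    have h1 := Nat.mul_le_mul (show row c 0 ≤ 2 * K by omega) (show row c 0 ≤ 2 * K by omega)
    rw [show 2 * K * (2 * K) = 4 * K * K by ring] at h1
    have h0 : row c 0 = 0 → row c 0 * row c 0 = 0 := fun h => by rw [h]
    omega
  have hhook := sum_range_add_colLen_le c 1
  have hhook2 := sum_range_add_colLen_le c 2
  have hc1 := row_zero_add_one_le c
  have hc10 := row_antitone c (show 0 ≤ 1 by omega)
  simp only [sum_range_succ, sum_range_zero, zero_add] at hhook hhook2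
  -- bounds on the residual shape
  have resid : ∀ (f : ℕ → ℕ) (M : ℕ) (kap : (total (pieces r K)).Partition),
      (∀ t, colLen kap t = #((range (q + (total (pieces r K)))).filter fun i => t < f i)) →
      (∀ i, f i ≤ M) → row kap 0 ≤ M := fun f M kap hk hf => by
    refine row_zero_le_of_colLen kap ?_
    rw [hk, card_eq_zero, filter_eq_empty_iff]
    exact fun i _ => not_lt.mpr (hf i)
  by_cases hgen : 2 * q + 2 * K ≤ q + (total (pieces r K))
  · -- strip the first row
    by_cases hexc : r = [] ∧ K = 2 ∧ row c 1 ≤ 1 ∧ (row c 0 = q + 8 ∨ row c 0 = q + 7)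
    · -- near-exceptional hooks: conjugate first
      obtain ⟨hr0, hK2, hrow1, hrow0⟩ := hexc
      have hq4 := hlast.resolve_right fun h => h hr0
      have hT14 : (total (pieces r K)) = 14 := by subst hK2 hr0; rfl
      have hlenlow : q + (total (pieces r K)) + 1 ≤ row c 0 + colLen c 0 := by
        have h1 := size_le c (a := 1) (m := 1) le_rfl
        simp only [sum_range_one, Nat.sub_self, zero_mul, add_zero] at h1
        have h2 := Nat.mul_le_mul_left (colLen c 0 - 1) hrow1
        have h3 : 1 ≤ colLen c 0 := (lt_colLen_iff c 0 0).mpr (by omega)
        omega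
      refine Good.of_conjP (ps := Piece.single q :: pieces r K) (good_single_row (conjP c) ?_ fun kap hk => ?_)
      · rw [row_conjP_zero]; omega
      · have h0 : row kap 0 ≤ 5 := resid _ 5 kap hk fun i => by
          by_cases hi : i = 0
          · subst hi; rw [if_pos rfl, row_conjP_zero]; omega
          · rw [if_neg hi, row_conjP]
            have h1 : colLen c i ≤ colLen c 1 := colLen_antitone c (by omega)
            have h2 : colLen c 1 ≤ 1 := by
              by_contra hcc
              have := (lt_colLen_iff c 1 1).mp (not_le.mp hcc)
              omega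
            omega
        refine ih kap (by omega) ?_ (fun he => by have := he.2.2.2; omega)
        have h1 : colLen kap 0 ≤ colLen (conjP c) 0 := by
          rw [hk, colLen]
          exact card_le_card fun i hi => by simp only [mem_filter] at hi ⊢; exact ⟨hi.1, by omega⟩
        rw [colLen_conjP] at h1
        omega
    refine good_single_row c hqc fun kap hk => ?_
    have h0 : row kap 0 ≤ (total (pieces r K)) - K := resid _ _ kap hk fun i => by
      by_cases hi : i = 0
      · subst hi; rw [if_pos rfl]; omega
      · rw [if_neg hi]
        have := row_antitone c (show 1 ≤ i by omega)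
        omega
    have hl : colLen kap 0 ≤ colLen c 0 := by
      rw [hk, colLen]
      exact card_le_card fun i hi => by simp only [mem_filter] at hi ⊢; exact ⟨hi.1, by omega⟩
    refine ih kap (by omega) (by omega) fun he => hexc ?_
    obtain ⟨hr0, hK2, hk1, hk0⟩ := he
    have hT14 : (total (pieces r K)) = 14 := by subst hK2 hr0; rfl
    -- at most one residual row has two boxes
    have hone : colLen kap 1 ≤ 1 := by
      by_contra hc
      have := (lt_colLen_iff kap 1 1).mp (not_le.mp hc)
      omega
    rw [hk] at hone
    have hpair : ¬ (2 ≤ row c 0 - q ∧ 2 ≤ row c 1) := by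
      rintro ⟨ha, hb⟩
      have hsub : ({0, 1} : Finset ℕ) ⊆
          (range (q + (total (pieces r K)))).filter fun i => 1 < row c i - (if i = 0 then q else 0) := by
        intro i hi
        simp only [mem_insert, mem_singleton] at hi
        rcases hi with rfl | rfl <;> simp <;> omega
      have := card_le_card hsub
      rw [card_pair (by omega)] at this
      omega
    have hpair2 : ¬ (2 ≤ row c 2) := by
      intro hb
      have hb1 := row_antitone c (show 1 ≤ 2 by omega)
      have hsub : ({1, 2} : Finset ℕ) ⊆
          (range (q + (total (pieces r K)))).filter fun i => 1 < row c i - (if i = 0 then q else 0) := by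
        intro i hi
        simp only [mem_insert, mem_singleton] at hi
        rcases hi with rfl | rfl <;> simp <;> omega
      have := card_le_card hsub
      rw [card_pair (by omega)] at this
      omega
    have hc0big : q + 2 ≤ row c 0 := by
      by_contra hc
      have h1 := size_le c (a := 2) (m := 2) le_rfl
      simp only [sum_range_succ, sum_range_zero, zero_add, Nat.sub_self, zero_mul, add_zero] at h1
      have h2 := Nat.mul_le_mul_left (colLen c 0 - 2) (show row c 2 ≤ 1 by omega)
      have hc5 : row c 0 ≤ 5 := by omega
      have hc5' : colLen c 0 ≤ 5 := by omega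
      omega
    have hrow1 : row c 1 ≤ 1 := by omega
    refine ⟨hr0, hK2, hrow1, ?_⟩
    have hmax : row kap 0 = row c 0 - q := by
      refine le_antisymm (resid _ _ kap hk fun i => ?_) ?_
      · by_cases hi : i = 0
        · subst hi; rw [if_pos rfl]
        · rw [if_neg hi]
          have := row_antitone c (show 1 ≤ i by omega)
          omega
      · by_contra hc
        have h1 := mt (lt_colLen_iff kap 0 (row kap 0)).mp (lt_irrefl _)
        rw [hk] at h1
        refine h1 (card_pos.mpr ⟨0, ?_⟩)
        simp
        omega
    omega
  · -- `K = 1` and few points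
    have hK1 : K = 1 := by
      by_contra hne
      have := Nat.mul_le_mul_left (4 * K) (show 2 ≤ K by omega)
      omega
    have hKK : 4 * K * K = 4 := by rw [hK1]
    have hr' : (total (pieces r K)) = r.sum + 3 := by omega
    have hrs : r = [] ∨ 1 ≤ r.sum := by
      rcases r with _ | ⟨a, r⟩
      · exact Or.inl rfl
      · refine Or.inr ?_
        have := hr.1
        simp
        omega
    have hrs0 : r = [] → r.sum = 0 := fun h => by rw [h]; rfl
    have hqT : q < total (pieces r K) := by
      rcases hlast with h | h
      · omega
      · have := hrs.resolve_left h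
        omega
    by_cases hl : colLen c 0 + 1 ≤ (total (pieces r K))
    · refine good_single_row c hqc fun kap hk => ?_
      have h0 : row kap 0 ≤ (total (pieces r K)) - 1 := resid _ _ kap hk fun i => by
        by_cases hi : i = 0
        · subst hi; rw [if_pos rfl]; omega
        · rw [if_neg hi]
          have := row_antitone c (show 1 ≤ i by omega)
          omega
      have hl' : colLen kap 0 ≤ colLen c 0 := by
        rw [hk, colLen]
        exact card_le_card fun i hi => by simp only [mem_filter] at hi ⊢; exact ⟨hi.1, by omega⟩
      exact ih kap (by omega) (by omega) fun he => by have := he.2.1; omega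
    · have hq2 : 2 ≤ q := by omega
      have hlen : colLen c 0 = (total (pieces r K)) := by omega
      have hrow1 : row c 1 ≤ 1 := by omega
      refine good_single_col c (by omega) fun kap hk => ?_
      have h0 : row kap 0 ≤ (total (pieces r K)) - 1 := resid _ _ kap hk fun i => by
        by_cases hi : i = 0
        · subst hi; rw [if_pos (by omega)]; omega
        · have := row_antitone c (show 1 ≤ i by omega)
          omega
      have hl' : colLen kap 0 + q ≤ (total (pieces r K)) + 1 := by
        rw [hk]
        have hsub : ((range (q + (total (pieces r K)))).filter fun i => 0 < row c i - (if i < q then 1 else 0)) ⊆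
            insert 0 (Finset.Ico q (colLen c 0)) := by
          intro i hi
          simp only [mem_filter, mem_range] at hi
          simp only [mem_insert, mem_Ico]
          have h1 := (lt_colLen_iff c i 0).mpr (by omega)
          rcases Nat.eq_zero_or_pos i with h | h
          · exact Or.inl h
          · refine Or.inr ⟨?_, h1⟩
            have h2 := row_antitone c (show 1 ≤ i by omega)
            by_contra hc
            rw [if_pos (not_le.mp hc)] at hi
            omega
        have h3 := (card_le_card hsub).trans (card_insert_le _ _)
        rw [Nat.card_Ico] at h3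
        omega
      exact ih kap (by omega) (by omega) fun he => by have := he.2.1; omega

/-- The step for a single class. -/
theorem cov_single {q : ℕ} {r : List ℕ} {K : ℕ} (hK : 1 ≤ K) (hok : TopOK K (q :: r))
    (ih : Cov r K) : Cov (q :: r) K := by
  obtain ⟨h1, h2, h3, h4⟩ := hok
  intro c
  change (q + total (pieces r K)).Partition at c
  intro hc0 hl _
  change row (c : (q + total (pieces r K)).Partition) 0 + K ≤ q + total (pieces r K) at hc0
  rcases le_total (colLen c 0) (row c 0) with h | h
  · exact cov_single_aux hK h1 h2 h3 h4 ih c hc0 h
  · refine Good.of_conjP (cov_single_aux hK h1 h2 h3 h4 ih (conjP c) ?_ ?_)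
    · rw [row_conjP_zero]; exact hl
    · rw [colLen_conjP, row_conjP_zero]; exact h

end Vale.Agent.P197.Covering
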